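import Mathlib.GroupTheory.PushoutI
import Mathlib.Tactic

/-! Reduced words in a free product: normal form and cancellation. -/

set_option linter.all false

namespace Vale.Agent.N186

open Monoid

variable {ι : Type} {M : ι → Type} [∀ i, Group (M i)]

/-- value of a list of syllables -/
def ev (l : List (Σ i, M i)) : CoprodI M := (l.map fun s => CoprodI.of s.2).prod

/-- reduced list of syllables -/
def Red (l : List (Σ i, M i)) : Prop :=
  (∀ s ∈ l, s.2 ≠ 1) ∧ l.IsChain fun a b => a.1 ≠ b.1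

/-- inverse syllable -/
def sinv (s : Σ i, M i) : Σ i, M i := ⟨s.1, s.2⁻¹⟩

/-- inverse list of syllables -/
def linv (l : List (Σ i, M i)) : List (Σ i, M i) := (l.map sinv).reverse

@[simp] theorem ev_nil : ev ([] : List (Σ i, M i)) = 1 := rfl

@[simp] theorem ev_cons (s : Σ i, M i) (l : List (Σ i, M i)) :
    ev (s :: l) = CoprodI.of s.2 * ev l := by
  simp [ev]

@[simp] theorem ev_append (l l' : List (Σ i, M i)) : ev (l ++ l') = ev l * ev l' := by
  simp [ev]

@[simp] theorem sinv_sinv (s : Σ i, M i) : sinv (sinv s) = s := by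
  obtain ⟨i, g⟩ := s
  show (⟨i, g⁻¹⁻¹⟩ : Σ i, M i) = ⟨i, g⟩
  rw [inv_inv]

@[simp] theorem sinv_fst (s : Σ i, M i) : (sinv s).1 = s.1 := rfl

@[simp] theorem linv_nil : linv ([] : List (Σ i, M i)) = [] := rfl

@[simp] theorem linv_cons (s : Σ i, M i) (l : List (Σ i, M i)) :
    linv (s :: l) = linv l ++ [sinv s] := by
  simp [linv]

@[simp] theorem linv_append (l l' : List (Σ i, M i)) : linv (l ++ l') = linv l' ++ linv l := by
  simp [linv]

@[simp] theorem linv_linv (l : List (Σ i, M i)) : linv (linv l) = l := by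
  induction l with
  | nil => rfl
  | cons s l ih => simp [ih]

@[simp] theorem length_linv (l : List (Σ i, M i)) : (linv l).length = l.length := by
  simp [linv]

@[simp] theorem ev_linv (l : List (Σ i, M i)) : ev (linv l) = (ev l)⁻¹ := by
  induction l with
  | nil => simp
  | cons s l ih => simp [ih, sinv]

theorem Red.nil : Red ([] : List (Σ i, M i)) := ⟨by simp, by simp⟩

theorem Red.sub {l l' : List (Σ i, M i)} (h : Red l) (h' : l' <:+: l) : Red l' :=
  ⟨fun s hs => h.1 s (h'.subset hs), by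
    obtain ⟨p, q, rfl⟩ := h'
    exact h.2.left_of_append.right_of_append⟩

theorem Red.left {l l' : List (Σ i, M i)} (h : Red (l ++ l')) : Red l :=
  h.sub ⟨[], l', by simp⟩

theorem Red.right {l l' : List (Σ i, M i)} (h : Red (l ++ l')) : Red l' :=
  h.sub ⟨l, [], by simp⟩

theorem Red.tail {s : Σ i, M i} {l : List (Σ i, M i)} (h : Red (s :: l)) : Red l :=
  Red.right (l := [s]) h

theorem red_append {l l' : List (Σ i, M i)} : Red (l ++ l') ↔ Red l ∧ Red l' ∧
    ∀ a ∈ l.getLast?, ∀ b ∈ l'.head?, a.1 ≠ b.1 := by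
  unfold Red
  rw [List.isChain_append]
  constructor
  · rintro ⟨h1, h2, h3, h4⟩
    exact ⟨⟨fun s hs => h1 s (by simp [hs]), h2⟩, ⟨fun s hs => h1 s (by simp [hs]), h3⟩, h4⟩
  · rintro ⟨⟨h1, h2⟩, ⟨h3, h4⟩, h5⟩
    refine ⟨fun s hs => ?_, h2, h4, h5⟩
    rcases List.mem_append.1 hs with h | h
    · exact h1 s h
    · exact h3 s h

theorem red_cons {s : Σ i, M i} {l : List (Σ i, M i)} : Red (s :: l) ↔ s.2 ≠ 1 ∧ Red l ∧
    ∀ b ∈ l.head?, s.1 ≠ b.1 := by
  have := red_append (l := [s]) (l' := l)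
  simp only [List.singleton_append] at this
  rw [this]
  simp [Red]

theorem red_singleton {s : Σ i, M i} : Red [s] ↔ s.2 ≠ 1 := by
  simp [Red]

theorem Red.inj {l l' : List (Σ i, M i)} (h : Red l) (h' : Red l') (e : ev l = ev l') : l = l' := by
  classical
  let w : CoprodI.Word M := ⟨l, h.1, h.2⟩
  let w' : CoprodI.Word M := ⟨l', h'.1, h'.2⟩
  have : w = w' := (CoprodI.Word.equiv (M := M)).symm.injective e
  exact congrArg CoprodI.Word.toList this

theorem exists_red (a : CoprodI M) : ∃ l, Red l ∧ ev l = a := by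
  classical
  let w := CoprodI.Word.equiv a
  exact ⟨w.toList, ⟨w.ne_one, w.chain_ne⟩, (CoprodI.Word.equiv (M := M)).symm_apply_apply a⟩

/-- normal form -/
noncomputable def nf (a : CoprodI M) : List (Σ i, M i) := (exists_red a).choose

theorem red_nf (a : CoprodI M) : Red (nf a) := (exists_red a).choose_spec.1

@[simp] theorem ev_nf (a : CoprodI M) : ev (nf a) = a := (exists_red a).choose_spec.2

theorem nf_ev {l : List (Σ i, M i)} (h : Red l) : nf (ev l) = l :=
  (red_nf _).inj h (ev_nf _)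

theorem nf_eq {l : List (Σ i, M i)} {a : CoprodI M} (h : Red l) (e : ev l = a) : nf a = l := by
  rw [← e, nf_ev h]

theorem nf_one : nf (1 : CoprodI M) = [] := nf_eq Red.nil rfl

theorem nf_ne_nil {a : CoprodI M} (h : a ≠ 1) : nf a ≠ [] := by
  intro e
  apply h
  rw [← ev_nf a, e, ev_nil]

theorem Red.ev_ne {l : List (Σ i, M i)} (h : Red l) (hl : l ≠ []) : ev l ≠ 1 := by
  intro e
  exact hl (h.inj Red.nil e)

/-- the product of two reduced words: cancellation, then at most one merge -/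
theorem mul_nf : ∀ (v u : List (Σ i, M i)), Red u → Red v →
    ∃ u₁ u₂ c v₂ v₁ m : List (Σ i, M i), u = u₁ ++ u₂ ++ linv c ∧ v = c ++ v₂ ++ v₁ ∧
      nf (ev u * ev v) = u₁ ++ m ++ v₁ ∧ u₂.length ≤ 1 ∧ v₂.length ≤ 1 ∧ m.length ≤ 1 := by
  intro v
  induction v with
  | nil =>
    intro u hu _
    exact ⟨u, [], [], [], [], [], by simp, by simp, by simp [nf_ev hu], by simp, by simp, by simp⟩
  | cons s v ih =>
    intro u hu hv
    rcases List.eq_nil_or_concat u with rfl | ⟨u', t, rfl⟩
    · exact ⟨[], [], [], [], s :: v, [], by simp, by simp,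
        by rw [ev_nil, one_mul, nf_ev hv]; simp, by simp, by simp, by simp⟩
    rw [List.concat_eq_append] at hu ⊢
    obtain ⟨i, g⟩ := s
    obtain ⟨j, g'⟩ := t
    by_cases hij : j = i
    · subst hij
      by_cases hg : g' * g = 1
      · obtain ⟨u₁, u₂, c, v₂, v₁, m, e1, e2, e3, l1, l2, l3⟩ := ih u' hu.left hv.tail
        refine ⟨u₁, u₂, ⟨j, g⟩ :: c, v₂, v₁, m, ?_, ?_, ?_, l1, l2, l3⟩
        · rw [e1, linv_cons, eq_inv_of_mul_eq_one_left hg]
          simp [sinv]
        · rw [e2]; simp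
        · rw [← e3]
          congr 1
          simp only [ev_append, ev_cons, ev_nil, mul_one]
          rw [mul_assoc, ← mul_assoc (CoprodI.of g'), ← map_mul, hg, map_one, one_mul]
      · refine ⟨u', [⟨j, g'⟩], [], [⟨j, g⟩], v, [⟨j, g' * g⟩], by simp, by simp, ?_, by simp,
          by simp, by simp⟩
        apply nf_eq
        · rw [red_append] at hu
          rw [red_cons] at hv
          rw [List.append_assoc, red_append, List.singleton_append, red_cons]
          refine ⟨hu.1, ⟨hg, hv.2.1, hv.2.2⟩, ?_⟩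
          intro a ha b hb
          simp only [List.head?_cons, Option.mem_def, Option.some.injEq] at hb
          subst hb
          exact hu.2.2 a ha ⟨j, g'⟩ (by simp)
        · simp [mul_assoc]
    · refine ⟨u' ++ [⟨j, g'⟩], [], [], [], ⟨i, g⟩ :: v, [], by simp, by simp, ?_, by simp,
        by simp, by simp⟩
      apply nf_eq
      · rw [List.append_nil, red_append]
        refine ⟨hu, hv, ?_⟩
        intro a ha b hb
        simp only [List.head?_cons, Option.mem_def, Option.some.injEq] at hb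
        simp only [List.getLast?_append, List.getLast?_singleton, Option.some_or, Option.mem_def,
          Option.some.injEq] at ha
        subst ha hb
        exact hij
      · simp [mul_assoc]

theorem linv_pre {p q : List (Σ i, M i)} (h : p <:+ q) : linv p <+: linv q := by
  obtain ⟨t, rfl⟩ := h
  exact ⟨linv t, by simp⟩

theorem linv_suf {p q : List (Σ i, M i)} (h : p <+: q) : linv p <:+ linv q := by
  obtain ⟨t, rfl⟩ := h
  exact ⟨linv t, by simp⟩

/-- what survives of the left factor -/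
theorem survive_left {a b : CoprodI M} {p₁ p₂ : List (Σ i, M i)} (ha : nf a = p₁ ++ p₂)
    (h : ¬ linv p₂ <+: nf b) : p₁ <+: nf (a * b) := by
  obtain ⟨u₁, u₂, c, v₂, v₁, m, e1, e2, e3, l1, l2, l3⟩ :=
    mul_nf (nf b) (nf a) (red_nf a) (red_nf b)
  rw [ev_nf, ev_nf] at e3
  have hc : c.length < p₂.length := by
    by_contra hc
    apply h
    have h1 : p₂ <:+ nf a := ⟨p₁, ha.symm⟩
    have h2 : linv c <:+ nf a := ⟨u₁ ++ u₂, e1.symm⟩
    have h3 : p₂ <:+ linv c := List.suffix_of_suffix_length_le h1 h2 (by simp; omega)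
    have h4 := linv_pre h3
    rw [linv_linv] at h4
    exact h4.trans ⟨v₂ ++ v₁, by rw [e2]; simp⟩
  have hl := congrArg List.length (ha.symm.trans e1)
  simp only [List.length_append, length_linv] at hl
  have h1 : p₁ <+: nf a := ⟨p₂, ha.symm⟩
  have h2 : u₁ <+: nf a := ⟨u₂ ++ linv c, by rw [e1]; simp⟩
  have h3 : p₁ <+: u₁ := List.prefix_of_prefix_length_le h1 h2 (by omega)
  exact h3.trans ⟨m ++ v₁, by rw [e3]; simp⟩

/-- what survives of the right factor -/
theorem survive_right {a b : CoprodI M} {q₁ q₂ : List (Σ i, M i)} (hb : nf b = q₁ ++ q₂)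
    (h : ¬ linv q₁ <:+ nf a) : ∃ u₁ t : List (Σ i, M i), nf (a * b) = u₁ ++ t ++ q₂ ∧
      u₁ <+: nf a ∧ t.length ≤ q₁.length + 1 ∧ ev (u₁ ++ t) = a * ev q₁ := by
  obtain ⟨u₁, u₂, c, v₂, v₁, m, e1, e2, e3, l1, l2, l3⟩ :=
    mul_nf (nf b) (nf a) (red_nf a) (red_nf b)
  rw [ev_nf, ev_nf] at e3
  have hc : c.length < q₁.length := by
    by_contra hc
    apply h
    have h1 : q₁ <+: nf b := ⟨q₂, hb.symm⟩
    have h2 : c <+: nf b := ⟨v₂ ++ v₁, by rw [e2]; simp⟩
    have h3 : q₁ <+: c := List.prefix_of_prefix_length_le h1 h2 (by omega)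
    exact (linv_suf h3).trans ⟨u₁ ++ u₂, e1.symm⟩
  have hl := congrArg List.length (hb.symm.trans e2)
  simp only [List.length_append] at hl
  have h1 : q₂ <:+ nf b := ⟨q₁, hb.symm⟩
  have h2 : v₁ <:+ nf b := ⟨c ++ v₂, e2.symm⟩
  obtain ⟨r, hr⟩ : q₂ <:+ v₁ := List.suffix_of_suffix_length_le h1 h2 (by omega)
  have hl2 := congrArg List.length hr
  simp only [List.length_append] at hl2
  have e4 : nf (a * b) = u₁ ++ (m ++ r) ++ q₂ := by rw [e3, ← hr]; simp
  refine ⟨u₁, m ++ r, e4, ⟨u₂ ++ linv c, by rw [e1]; simp⟩, by simp; omega, ?_⟩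
  have e5 := congrArg ev e4
  have e6 := congrArg ev hb
  rw [ev_nf, ev_append] at e5 e6
  rw [e6, ← mul_assoc] at e5
  exact (mul_right_cancel e5).symm

end Vale.Agent.N186
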