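import Vale.Agent.N186.Pres
import Vale.Agent.N186.Free

/-! Dehn's algorithm over a free product gives a linear isoperimetric inequality. -/

set_option linter.all false

namespace Vale.Agent.N186

open Monoid

variable {κ : Type} {N : κ → Type} [∀ k, Group (N k)] (P : ∀ k, LinPres (N k))

/-- all letters -/
abbrev Lt : Type := Σ k, (P k).L

/-- a word in the letters of one factor -/
abbrev Ent : Type := Σ k, List ((P k).L × Bool)

def emb (k : κ) : FreeGroup (P k).L →* FreeGroup (Lt P) := FreeGroup.map fun a => ⟨k, a⟩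

def vl (e : Ent P) : Σ k, N k := ⟨e.1, FreeGroup.lift (P e.1).gen (FreeGroup.mk e.2)⟩

def val (E : List (Ent P)) : FreeGroup (Lt P) :=
  (E.map fun e => emb P e.1 (FreeGroup.mk e.2)).prod

def tl (E : List (Ent P)) : ℕ := (E.map fun e => e.2.length).sum

@[simp] theorem val_nil : val P [] = 1 := rfl

@[simp] theorem val_cons (e : Ent P) (E : List (Ent P)) :
    val P (e :: E) = emb P e.1 (FreeGroup.mk e.2) * val P E := by simp [val]

@[simp] theorem val_append (E E' : List (Ent P)) : val P (E ++ E') = val P E * val P E' := by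
  simp [val]

@[simp] theorem tl_nil : tl P [] = 0 := rfl

@[simp] theorem tl_cons (e : Ent P) (E : List (Ent P)) : tl P (e :: E) = e.2.length + tl P E := by
  simp [tl]

@[simp] theorem tl_append (E E' : List (Ent P)) : tl P (E ++ E') = tl P E + tl P E' := by
  simp [tl]

theorem exists_wd (k : κ) (g : N k) :
    ∃ w : List ((P k).L × Bool), FreeGroup.lift (P k).gen (FreeGroup.mk w) = g := by
  obtain ⟨u, rfl⟩ := (P k).surj g
  obtain ⟨w, rfl⟩ := Quot.exists_rep u
  exact ⟨w, rfl⟩

/-- a chosen word for a syllable -/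
noncomputable def std (σ : Σ k, N k) : Ent P := ⟨σ.1, (exists_wd P σ.1 σ.2).choose⟩

theorem vl_std (σ : Σ k, N k) : vl P (std P σ) = σ := by
  obtain ⟨k, g⟩ := σ
  show (⟨k, _⟩ : Σ k, N k) = ⟨k, g⟩
  congr 1
  exact (exists_wd P k g).choose_spec

theorem map_vl_std (D : List (Σ k, N k)) : (D.map (std P)).map (vl P) = D := by
  rw [List.map_map]
  conv_rhs => rw [← List.map_id D]
  exact List.map_congr_left fun σ _ => vl_std P σ

variable {Γ : Type} [Group Γ] (π : CoprodI N →* Γ)

def gn (l : Lt P) : Γ := π (CoprodI.of ((P l.1).gen l.2))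

theorem th_emb (k : κ) (u : FreeGroup (P k).L) :
    FreeGroup.lift (gn P π) (emb P k u) = π (CoprodI.of (FreeGroup.lift (P k).gen u)) := by
  have : (FreeGroup.lift (gn P π)).comp (emb P k) =
      π.comp ((CoprodI.of : N k →* CoprodI N).comp (FreeGroup.lift (P k).gen)) := by
    ext a
    simp [emb, gn]
  exact DFunLike.congr_fun this u

theorem th_val (E : List (Ent P)) :
    FreeGroup.lift (gn P π) (val P E) = π (ev (E.map (vl P))) := by
  induction E with
  | nil => simp
  | cons e E ih =>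
    rw [val_cons, map_mul, ih, List.map_cons, ev_cons, map_mul, th_emb]
    rfl

variable {R : Set (FreeGroup (Lt P))} {A : ℕ}

theorem eqv_ent (hR : ∀ k, ∀ r ∈ (P k).R, emb P k r ∈ R) (hA : ∀ k, (P k).A ≤ A) (k : κ)
    (u v : List ((P k).L × Bool))
    (h : FreeGroup.lift (P k).gen (FreeGroup.mk u) = FreeGroup.lift (P k).gen (FreeGroup.mk v)) :
    Eqv R (A * (u.length + v.length + 1)) (emb P k (FreeGroup.mk u)) (emb P k (FreeGroup.mk v)) :=
  (((P k).eqv u v h).map (emb P k) (hR k)).mono (Nat.mul_le_mul_right _ (hA k))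

theorem eqv_std (hR : ∀ k, ∀ r ∈ (P k).R, emb P k r ∈ R) (hA : ∀ k, (P k).A ≤ A)
    (E : List (Ent P)) :
    Eqv R (A * (tl P E + tl P ((E.map (vl P)).map (std P)) + E.length)) (val P E)
      (val P ((E.map (vl P)).map (std P))) := by
  induction E with
  | nil => simpa using Eqv.refl 1
  | cons e E ih =>
    obtain ⟨k, w⟩ := e
    have h1 := eqv_ent P hR hA k w (std P (vl P ⟨k, w⟩)).2
      (exists_wd P k (FreeGroup.lift (P k).gen (FreeGroup.mk w))).choose_spec.symm
    rw [List.map_cons, List.map_cons, val_cons, val_cons]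
    refine (h1.mul ih).mono (le_of_eq ?_)
    simp only [tl_cons, List.length_cons]
    have e : ∀ a b c d f : ℕ, A * (a + b + 1) + A * (c + d + f) = A * (a + c + (b + d) + (f + 1)) :=
      fun a b c d f => by ring
    exact e _ _ _ _ _

theorem area_all (hR : ∀ k, ∀ r ∈ (P k).R, emb P k r ∈ R) (hA : ∀ k, (P k).A ≤ A)
    (Mv : Set (List (Σ k, N k) × List (Σ k, N k))) (Mx : ℕ)
    (hMx : ∀ m ∈ Mv, tl P (m.1.map (std P)) + tl P (m.2.map (std P)) + m.1.length ≤ Mx)
    (hMR : ∀ m ∈ Mv, val P (m.1.map (std P)) * (val P (m.2.map (std P)))⁻¹ ∈ R)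
    (hlen : ∀ m ∈ Mv, m.2.length < m.1.length) (hval : ∀ m ∈ Mv, π (ev m.1) = π (ev m.2))
    (hdehn : ∀ D, Red D → D ≠ [] → π (ev D) = 1 → ∃ m ∈ Mv, m.1 <:+: D) :
    ∀ (n : ℕ) (E : List (Ent P)), (2 * Mx + 1) * E.length + tl P E ≤ n →
      π (ev (E.map (vl P))) = 1 → Eqv R ((A + 1) * n) (val P E) 1 := by
  intro n
  induction n using Nat.strong_induction_on with
  | _ n ih =>
  intro E hE h1
  have step : ∀ (E' : List (Ent P)) (d c : ℕ), Eqv R c (val P E) (val P E') →
      (2 * Mx + 1) * E'.length + tl P E' + d ≤ (2 * Mx + 1) * E.length + tl P E → 1 ≤ d →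
      c ≤ (A + 1) * d → π (ev (E'.map (vl P))) = 1 → Eqv R ((A + 1) * n) (val P E) 1 := by
    intro E' d c h2 h3 h4 h5 h6
    have h7 := ih (n - d) (by omega) E' (by omega) h6
    refine (h2.trans h7).mono ?_
    have h8 : n = d + (n - d) := by omega
    calc c + (A + 1) * (n - d) ≤ (A + 1) * d + (A + 1) * (n - d) := by omega
      _ = (A + 1) * (d + (n - d)) := by ring
      _ = (A + 1) * n := by rw [← h8]
  by_cases hne : E = []
  · subst hne
    exact (Eqv.refl _).mono (Nat.zero_le _)
  by_cases hr : Red (E.map (vl P))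
  · obtain ⟨m, hm, D₁, D₂, e⟩ := hdehn _ hr (by simpa using hne) h1
    obtain ⟨E₁₂, E₃, rfl, e12, e3⟩ := List.map_eq_append_iff.1 e.symm
    obtain ⟨E₁, E₂, rfl, e1, e2⟩ := List.map_eq_append_iff.1 e12
    have q1 := eqv_std P hR hA E₂
    rw [e2] at q1
    have q2 := (q1.trans (Eqv.of_mem (hMR m hm))).ctx (val P E₁) (val P E₃)
    have l1 : E₂.length = m.1.length := by rw [← e2, List.length_map]
    have l2 := hlen m hm
    have l3 := hMx m hm
    refine step (E₁ ++ m.2.map (std P) ++ E₃) (tl P E₂ + Mx + 1) _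
      (by simpa only [val_append] using q2) ?_ (by omega) ?_ ?_
    · simp only [List.length_append, List.length_map, tl_append]
      have l4 : (2 * Mx + 1) * (E₁.length + m.2.length + E₃.length) + (2 * Mx + 1) ≤
          (2 * Mx + 1) * (E₁.length + E₂.length + E₃.length) := by
        rw [← Nat.mul_succ]
        exact Nat.mul_le_mul_left _ (by omega)
      omega
    · have l4 : A * (tl P E₂ + tl P (m.1.map (std P)) + E₂.length) ≤ A * (tl P E₂ + Mx + 1) :=
        Nat.mul_le_mul_left _ (by omega)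
      rw [add_mul, one_mul]
      omega
    · simp only [List.map_append, ev_append, map_mul, map_vl_std] at h1 ⊢
      rw [e2, hval m hm] at h1
      exact h1
  by_cases ht : ∀ s ∈ E.map (vl P), s.2 ≠ 1
  · have hc : ¬ E.IsChain fun a b => a.1 ≠ b.1 := by
      intro hc
      apply hr
      refine ⟨ht, ?_⟩
      rw [List.isChain_map]
      exact hc
    rw [List.isChain_iff_forall_rel_of_append_cons_cons] at hc
    push Not at hc
    obtain ⟨⟨k, w⟩, ⟨k', w'⟩, E₁, E₂, rfl, hk⟩ := hc
    dsimp only at hk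
    subst hk
    have e1 : val P (E₁ ++ ⟨k, w⟩ :: ⟨k, w'⟩ :: E₂) = val P (E₁ ++ ⟨k, w ++ w'⟩ :: E₂) := by
      simp only [val_append, val_cons, ← FreeGroup.mul_mk, map_mul, mul_assoc]
    refine step (E₁ ++ ⟨k, w ++ w'⟩ :: E₂) 1 0 (by rw [e1]; exact Eqv.refl _) ?_ le_rfl
      (Nat.zero_le _) ?_
    · simp only [List.length_append, List.length_cons, tl_append, tl_cons]
      have l4 : (2 * Mx + 1) * (E₁.length + (E₂.length + 1 + 1)) =
          (2 * Mx + 1) * (E₁.length + (E₂.length + 1)) + (2 * Mx + 1) := by ring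
      omega
    · rw [← th_val, ← e1, th_val]
      exact h1
  · push Not at ht
    obtain ⟨s, hs, hs1⟩ := ht
    obtain ⟨⟨k, w⟩, he, rfl⟩ := List.mem_map.1 hs
    obtain ⟨E₁, E₂, rfl⟩ := List.append_of_mem he
    have hw : FreeGroup.lift (P k).gen (FreeGroup.mk w) = 1 := hs1
    have q1 := eqv_ent P hR hA k w [] (by rw [hw, ← FreeGroup.one_eq_mk, map_one])
    rw [← FreeGroup.one_eq_mk, map_one] at q1
    have q2 := q1.ctx (val P E₁) (val P E₂)
    refine step (E₁ ++ E₂) (w.length + 1) _
      (by simpa only [val_append, val_cons, mul_one, mul_assoc] using q2) ?_ (by omega) ?_ ?_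
    · simp only [List.length_append, List.length_cons, tl_append, tl_cons]
      have l4 : (2 * Mx + 1) * (E₁.length + (E₂.length + 1)) =
          (2 * Mx + 1) * (E₁.length + E₂.length) + (2 * Mx + 1) := by ring
      omega
    · simp only [List.length_nil, add_zero]
      exact Nat.mul_le_mul_right _ (by omega)
    · simp only [List.map_append, List.map_cons, ev_append, ev_cons, map_mul] at h1 ⊢
      have e0 : (CoprodI.of (vl P ⟨k, w⟩).2 : CoprodI N) = 1 := by rw [hs1, map_one]
      rw [e0, map_one, one_mul] at h1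
      exact h1

theorem val_letters (u : List (Lt P × Bool)) :
    val P (u.map fun l => ⟨l.1.1, [(l.1.2, l.2)]⟩) = FreeGroup.mk u ∧
      tl P (u.map fun l => ⟨l.1.1, [(l.1.2, l.2)]⟩) = u.length := by
  induction u with
  | nil => exact ⟨rfl, rfl⟩
  | cons l u ih =>
    rw [List.map_cons, val_cons, tl_cons, ih.1, ih.2]
    constructor
    · unfold emb
      rw [FreeGroup.map.mk, FreeGroup.mul_mk]
      rfl
    · simp [add_comm]

include P in
theorem linPres_of_dehn [Fintype κ] (hπ : Function.Surjective π)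
    (Mv : Set (List (Σ k, N k) × List (Σ k, N k))) (hfin : Mv.Finite)
    (hlen : ∀ m ∈ Mv, m.2.length < m.1.length) (hval : ∀ m ∈ Mv, π (ev m.1) = π (ev m.2))
    (hdehn : ∀ D, Red D → D ≠ [] → π (ev D) = 1 → ∃ m ∈ Mv, m.1 <:+: D) :
    Nonempty (LinPres Γ) := by
  classical
  letI : ∀ k, Fintype (P k).L := fun k => (P k).fin
  obtain ⟨Mx, hMx⟩ := (hfin.image fun m =>
    tl P (m.1.map (std P)) + tl P (m.2.map (std P)) + m.1.length).bddAbove
  let A := Finset.univ.sup fun k => (P k).A
  have hA : ∀ k, (P k).A ≤ A := fun k => Finset.le_sup (f := fun k => (P k).A) (Finset.mem_univ k)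
  let R : Set (FreeGroup (Lt P)) := (⋃ k, emb P k '' (P k).R) ∪
    (fun m : List (Σ k, N k) × List (Σ k, N k) =>
      val P (m.1.map (std P)) * (val P (m.2.map (std P)))⁻¹) '' Mv
  refine ⟨{ L := Lt P, fin := inferInstance, gen := gn P π, R := R, A := (A + 1) * (2 * Mx + 2),
            finR := ?_, rel := ?_, surj := ?_, area := ?_ }⟩
  · exact (Set.finite_iUnion fun k => (P k).finR.image _).union (hfin.image _)
  · rintro r (hr | ⟨m, hm, rfl⟩)
    · obtain ⟨k, r', hr', rfl⟩ := Set.mem_iUnion.1 hr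
      rw [th_emb, (P k).rel r' hr', map_one, map_one]
    · rw [map_mul, map_inv, th_val, th_val, map_vl_std, map_vl_std, hval m hm, mul_inv_cancel]
  · intro g
    obtain ⟨a, rfl⟩ := hπ g
    exact ⟨val P ((nf a).map (std P)), by rw [th_val, map_vl_std, ev_nf]⟩
  · intro u hu
    obtain ⟨e1, e2⟩ := val_letters P u
    have h := area_all P π (R := R) (A := A)
      (fun k r hr => Or.inl (Set.mem_iUnion.2 ⟨k, r, hr, rfl⟩)) hA Mv Mx
      (fun m hm => hMx ⟨m, hm, rfl⟩) (fun m hm => Or.inr ⟨m, hm, rfl⟩) hlen hval hdehn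
      ((2 * Mx + 2) * u.length) (u.map fun l => ⟨l.1.1, [(l.1.2, l.2)]⟩)
      (by rw [e2, List.length_map]; exact le_of_eq (by ring)) (by rw [← th_val, e1, hu])
    rw [e1] at h
    refine h.mono ?_
    rw [mul_assoc]
    exact Nat.mul_le_mul_left _ (Nat.mul_le_mul_left _ (by omega))

end Vale.Agent.N186
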