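import Vale.Agent.N186.Words

/-! The amalgam of two free products along the free subgroups generated by the words: every
nonempty trivial alternating product contains more than half of a relator. -/

set_option linter.all false

namespace Vale.Agent.N186

open Monoid

variable {ι : Type} {M : ι → Type} [∀ i, Group (M i)] {Λ : Type} (S : Bool → Sys M Λ)

/-- the two embeddings -/
noncomputable def Φ : ∀ _ : Bool, FreeGroup Λ →* CoprodI M := fun s => (S s).φ

/-- the amalgam -/
abbrev PO : Type := PushoutI (G := fun _ : Bool => CoprodI M) (Φ S)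

/-- embedding of one side -/
noncomputable def sd (s : Bool) : CoprodI M →* PO S :=
  PushoutI.of (G := fun _ : Bool => CoprodI M) (φ := Φ S) s

/-- embedding of the free group -/
noncomputable def bs : FreeGroup Λ →* PO S := PushoutI.base (G := fun _ : Bool => CoprodI M) (Φ S)

theorem sd_φ (s : Bool) (w : FreeGroup Λ) : sd S s ((S s).φ w) = bs S w :=
  PushoutI.of_apply_eq_base (G := fun _ : Bool => CoprodI M) (Φ S) s w

theorem Φ_inj (s : Bool) : Function.Injective (Φ S s) := (S s).φ_inj

theorem sd_inj (s : Bool) : Function.Injective (sd S s) := PushoutI.of_injective (Φ_inj S) s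

theorem bs_inj : Function.Injective (bs S) := PushoutI.base_injective (Φ_inj S)

/-- product of a list of blocks -/
noncomputable def pv (B : List (Bool × CoprodI M)) : PO S := (B.map fun b => sd S b.1 b.2).prod

@[simp] theorem pv_nil : pv S [] = 1 := rfl

@[simp] theorem pv_cons (s : Bool) (c : CoprodI M) (B : List (Bool × CoprodI M)) :
    pv S ((s, c) :: B) = sd S s c * pv S B := by
  simp [pv]

/-- alternating list of elements outside the amalgamated subgroup -/
def Good (E : List (Bool × CoprodI M)) : Prop :=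
  (∀ b ∈ E, b.2 ∉ (S b.1).φ.range) ∧ E.IsChain fun a b => a.1 ≠ b.1

theorem Good.eq_nil {E : List (Bool × CoprodI M)} (h : Good S E) (hm : pv S E ∈ (bs S).range) :
    E = [] := by
  let l : List (Σ _ : Bool, CoprodI M) := E.map fun b => ⟨b.1, b.2⟩
  let w : CoprodI.Word (fun _ : Bool => CoprodI M) :=
    { toList := l
      ne_one := by
        intro p hp
        obtain ⟨b, hb, rfl⟩ := List.mem_map.1 hp
        intro e
        apply h.1 b hb
        have e' : b.2 = 1 := e
        rw [e']
        exact one_mem _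
      chain_ne := by
        rw [List.isChain_map]
        exact h.2 }
  have hw : PushoutI.Reduced (Φ S) w := by
    intro p hp
    obtain ⟨b, hb, rfl⟩ := List.mem_map.1 hp
    exact h.1 b hb
  have e : PushoutI.ofCoprodI (φ := Φ S) w.prod = pv S E := by
    show PushoutI.ofCoprodI (φ := Φ S) (List.prod (l.map fun l => CoprodI.of l.snd)) = pv S E
    rw [map_list_prod, List.map_map, List.map_map]
    unfold pv
    congr 1
  have h2 := PushoutI.Reduced.eq_empty_of_mem_range (Φ_inj S) hw (by rw [e]; exact hm)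
  have h3 : l = [] := congrArg CoprodI.Word.toList h2
  exact List.map_eq_nil_iff.1 h3

/-- more than half of a relator is visible between the two blocks -/
def Junc (s : Bool) (c : CoprodI M) (s' : Bool) (c' : CoprodI M) : Prop :=
  ∃ (ξ : Λ × Bool) (i j : ℕ), i < j ∧ j ≤ 9 ∧ ((S s).z ξ).drop i <:+ nf c ∧
    ((S s').z (fl ξ)).take j <+: nf c'

/-- first form of the invariant -/
def Inv1 (s : Bool) (c : CoprodI M) (g : PO S) : Prop :=
  ∃ e E, Good S ((s, e) :: E) ∧ g = pv S ((s, e) :: E) ∧
    ∀ ξ, ((S s).z ξ).take 5 <+: nf e → ((S s).z ξ).take 2 <+: nf c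

/-- second form of the invariant -/
def Inv2 (s : Bool) (c : CoprodI M) (g : PO S) : Prop :=
  ∃ ζ η f f' E, FreeGroup.IsReduced (ζ :: f) ∧ ζ :: f = f' ++ [η] ∧
    ((S s).z ζ).take 8 <+: nf c ∧ Good S E ∧ g = bs S (FreeGroup.mk (ζ :: f)) * pv S E ∧
    ∀ t e E', E = (t, e) :: E' → ¬ ((S t).z (fl η)).take 5 <+: nf e

theorem Inv1.ne {s : Bool} {c : CoprodI M} {g : PO S} (h : Inv1 S s c g) : g ≠ 1 := by
  obtain ⟨e, E, hE, rfl, _⟩ := h
  intro h1
  have := hE.eq_nil S (by rw [h1]; exact one_mem _)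
  simp at this

theorem Inv2.ne {s : Bool} {c : CoprodI M} {g : PO S} (h : Inv2 S s c g) : g ≠ 1 := by
  obtain ⟨ζ, η, f, f', E, hf, _, _, hE, rfl, _⟩ := h
  intro h1
  have h2 := hE.eq_nil S ⟨(FreeGroup.mk (ζ :: f))⁻¹, by
    rw [map_inv]; exact (eq_inv_of_mul_eq_one_right h1).symm⟩
  subst h2
  rw [pv_nil, mul_one, ← sd_φ S true, ← map_one (sd S true)] at h1
  have h3 := (S true).nf_φ hf (by simp)
  rw [sd_inj S true h1, nf_one] at h3
  exact (S true).enc_ne_nil _ _ h3.symm

theorem word_of_mem (s : Bool) {c : CoprodI M} (hc : c ∈ (S s).φ.range) (h1 : c ≠ 1) :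
    ∃ ζ η f f', FreeGroup.IsReduced (ζ :: f) ∧ ζ :: f = f' ++ [η] ∧
      ((S s).z ζ).take 8 <+: nf c ∧ ((S s).z η).drop 1 <:+ nf c ∧
      sd S s c = bs S (FreeGroup.mk (ζ :: f)) := by
  obtain ⟨f, hf, hne, rfl⟩ := (S s).exists_word hc h1
  obtain ⟨ζ, f, rfl⟩ := List.exists_cons_of_ne_nil hne
  obtain ⟨f', η, e⟩ : ∃ f' η, ζ :: f = f' ++ [η] := by
    rcases List.eq_nil_or_concat (ζ :: f) with h | ⟨f', η, h⟩
    · exact absurd h hne
    · exact ⟨f', η, by rw [h, List.concat_eq_append]⟩
  refine ⟨ζ, η, f, f', hf, e, ?_, ?_, sd_φ S s _⟩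
  · rw [(S s).nf_φ hf hne]
    exact (S s).enc_pre ζ f
  · rw [(S s).nf_φ hf hne, e]
    exact (S s).enc_suf η f' 0

theorem good_cons {s : Bool} {e : CoprodI M} {E : List (Bool × CoprodI M)}
    (he : e ∉ (S s).φ.range) (hE : Good S E) (h : ∀ b ∈ E.head?, s ≠ b.1) :
    Good S ((s, e) :: E) := by
  constructor
  · intro b hb
    rcases List.mem_cons.1 hb with rfl | hb
    · exact he
    · exact hE.1 b hb
  · rw [List.isChain_cons]
    exact ⟨h, hE.2⟩

theorem inv_base (s : Bool) {c : CoprodI M} (h1 : c ≠ 1) :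
    Inv1 S s c (sd S s c) ∨ Inv2 S s c (sd S s c) := by
  by_cases hc : c ∈ (S s).φ.range
  · obtain ⟨ζ, η, f, f', hf, e, p, _, q⟩ := word_of_mem S s hc h1
    exact Or.inr ⟨ζ, η, f, f', [], hf, e, p, ⟨by simp, by simp⟩, by simp [q], by simp⟩
  · exact Or.inl ⟨c, [], good_cons S hc ⟨by simp, by simp⟩ (by simp), by simp,
      fun ξ h => (List.take_prefix_take_left (by omega)).trans h⟩

theorem inv_step {s s' : Bool} {c c' : CoprodI M} {g : PO S} (hs : s' ≠ s) (h1 : c' ≠ 1)
    (hj : ¬ Junc S s' c' s c) (h : Inv1 S s c g ∨ Inv2 S s c g) :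
    Inv1 S s' c' (sd S s' c' * g) ∨ Inv2 S s' c' (sd S s' c' * g) := by
  by_cases hc : c' ∈ (S s').φ.range
  · obtain ⟨ζ', η', f₁, f₁', hf₁, e₁, p₁, p₂, q⟩ := word_of_mem S s' hc h1
    right
    rcases h with ⟨e, E, hE, rfl, hI⟩ | ⟨ζ, η, f, f', E, hf, e, p, hE, rfl, hI⟩
    · refine ⟨ζ', η', f₁, f₁', (s, e) :: E, hf₁, e₁, p₁, hE, by rw [q], ?_⟩
      intro t e' E' hh hp
      simp only [List.cons.injEq, Prod.mk.injEq] at hh
      obtain ⟨⟨rfl, rfl⟩, rfl⟩ := hh
      exact hj ⟨η', 1, 2, by omega, by omega, p₂, hI _ hp⟩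
    · refine ⟨ζ', η, f₁ ++ ζ :: f, (ζ' :: f₁) ++ f', E, ?_, ?_, p₁, hE, ?_, hI⟩
      · have e2 : ζ' :: (f₁ ++ ζ :: f) = (f₁' ++ [η']) ++ (ζ :: f) := by rw [← e₁]; simp
        rw [e2]
        unfold FreeGroup.IsReduced
        rw [List.isChain_append]
        refine ⟨e₁ ▸ hf₁, hf, ?_⟩
        intro a ha b hb hab
        simp only [List.getLast?_append, List.getLast?_singleton, Option.some_or, Option.mem_def,
          Option.some.injEq] at ha
        simp only [List.head?_cons, Option.mem_def, Option.some.injEq] at hb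
        subst ha hb
        by_contra hne
        have : fl η' = ζ := by
          obtain ⟨a1, a2⟩ := η'
          obtain ⟨b1, b2⟩ := ζ
          simp only at hab hne
          subst hab
          cases a2 <;> cases b2 <;> simp_all [fl]
        exact hj ⟨η', 1, 8, by omega, by omega, p₂, this ▸ p⟩
      · rw [e]; simp
      · rw [q, ← mul_assoc, ← map_mul, FreeGroup.mul_mk]
        rfl
  · left
    rcases h with ⟨e, E, hE, rfl, hI⟩ | ⟨ζ, η, f, f', E, hf, e, p, hE, rfl, hI⟩
    · refine ⟨c', (s, e) :: E, good_cons S hc hE ?_, by simp,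
        fun ξ h => (List.take_prefix_take_left (by omega)).trans h⟩
      intro b hb
      simp only [List.head?_cons, Option.mem_def, Option.some.injEq] at hb
      subst hb
      exact hs
    · have hcb : ¬ ((S s').z (fl ζ)).drop 7 <:+ nf c' := fun hh =>
        hj ⟨fl ζ, 7, 8, by omega, by omega, hh, by rw [fl_fl]; exact p⟩
      by_cases hE1 : ∃ e' E', E = (s', e') :: E'
      · obtain ⟨e', E', rfl⟩ := hE1
        have hb := (S s').start hf e (hI s' e' E' rfl)
        obtain ⟨k1, k2⟩ := (S s').key hc hb hcb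
        refine ⟨_, E', good_cons S k1 ⟨fun b hb => hE.1 b (List.mem_cons_of_mem _ hb), ?_⟩ ?_,
          ?_, k2⟩
        · exact (List.isChain_cons.1 hE.2).2
        · exact (List.isChain_cons.1 hE.2).1
        · simp only [pv_cons, map_mul, sd_φ, mul_assoc]
      · have hb := (S s').start (e := 1) hf e (by
          rw [nf_one]
          intro hh
          have := hh.length_le
          have l5 : (((S s').z (fl η)).take 5).length = 5 := rfl
          simp only [List.length_nil] at this
          omega)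
        obtain ⟨k1, k2⟩ := (S s').key hc hb hcb
        refine ⟨_, E, good_cons S k1 hE ?_, ?_, k2⟩
        · intro b hb hbs
          apply hE1
          cases E with
          | nil => simp at hb
          | cons b' E' =>
            simp only [List.head?_cons, Option.mem_def, Option.some.injEq] at hb
            subst hb
            exact ⟨b'.2, E', by rw [hbs]⟩
        · simp only [pv_cons, map_mul, sd_φ, mul_assoc, mul_one]

theorem inv_all : ∀ (B : List (Bool × CoprodI M)) (s : Bool) (c : CoprodI M),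
    (∀ b ∈ (s, c) :: B, b.2 ≠ 1) → ((s, c) :: B).IsChain (fun a b => a.1 ≠ b.1) →
    ((s, c) :: B).IsChain (fun a b => ¬ Junc S a.1 a.2 b.1 b.2) →
    Inv1 S s c (pv S ((s, c) :: B)) ∨ Inv2 S s c (pv S ((s, c) :: B)) := by
  intro B
  induction B with
  | nil =>
    intro s c h1 _ _
    rw [pv_cons, pv_nil, mul_one]
    exact inv_base S s (h1 (s, c) (by simp))
  | cons b B ih =>
    intro s c h1 h2 h3
    obtain ⟨t, d⟩ := b
    rw [List.isChain_cons_cons] at h2 h3
    rw [pv_cons]
    exact inv_step S h2.1 (h1 (s, c) (by simp)) h3.1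
      (ih t d (fun b hb => h1 b (List.mem_cons_of_mem _ hb)) h2.2 h3.2)

/-- Dehn's lemma for blocks -/
theorem dehn_blocks (B : List (Bool × CoprodI M)) (hne : B ≠ []) (h1 : ∀ b ∈ B, b.2 ≠ 1)
    (h2 : B.IsChain fun a b => a.1 ≠ b.1) (h : pv S B = 1) :
    ∃ B₁ a b B₂, B = B₁ ++ a :: b :: B₂ ∧ Junc S a.1 a.2 b.1 b.2 := by
  by_contra hcon
  obtain ⟨⟨s, c⟩, B, rfl⟩ := List.exists_cons_of_ne_nil hne
  have h3 : ((s, c) :: B).IsChain (fun a b => ¬ Junc S a.1 a.2 b.1 b.2) := by
    rw [List.isChain_iff_forall_rel_of_append_cons_cons]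
    intro a b l₁ l₂ e hj
    exact hcon ⟨l₁, a, b, l₂, e, hj⟩
  rcases inv_all S B s c h1 h2 h3 with hi | hi
  · exact hi.ne S h
  · exact hi.ne S h

/-! ### syllables of both sides -/

/-- syllable on a side -/
def tag (s : Bool) (σ : Σ i, M i) : Σ k : Bool × ι, M k.2 := ⟨(s, σ.1), σ.2⟩

/-- the projection of the free product of all factors of both sides -/
noncomputable def proj : CoprodI (fun k : Bool × ι => M k.2) →* PO S :=
  CoprodI.lift fun k => (sd S k.1).comp CoprodI.of

theorem proj_tag (s : Bool) (l : List (Σ i, M i)) :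
    proj S (ev (M := fun k : Bool × ι => M k.2) (l.map (tag s))) = sd S s (ev l) := by
  induction l with
  | nil => simp
  | cons σ l ih =>
    rw [List.map_cons, ev_cons, ev_cons, map_mul, map_mul, ih]
    rfl

theorem proj_surj : Function.Surjective (proj S) := by
  have h1 : ∀ s (a : CoprodI M), sd S s a ∈ (proj S).range := fun s a =>
    ⟨_, by rw [proj_tag S s (nf a), ev_nf]⟩
  intro g
  show g ∈ (proj S).range
  induction g using PushoutI.induction_on with
  | of s a => exact h1 s a
  | base w =>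
    have := h1 true ((S true).φ w)
    rw [sd_φ] at this
    exact this
  | mul a b ha hb => exact mul_mem ha hb

/-- syllables of a list of blocks -/
noncomputable def flat (B : List (Bool × CoprodI M)) : List (Σ k : Bool × ι, M k.2) :=
  B.flatMap fun b => (nf b.2).map (tag b.1)

theorem proj_flat (B : List (Bool × CoprodI M)) :
    proj S (ev (M := fun k : Bool × ι => M k.2) (flat B)) = pv S B := by
  induction B with
  | nil => simp [flat]
  | cons b B ih =>
    obtain ⟨s, c⟩ := b
    unfold flat at ih ⊢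
    rw [List.flatMap_cons, ev_append, map_mul, ih, proj_tag, ev_nf, pv_cons]

theorem exists_blocks (D : List (Σ k : Bool × ι, M k.2))
    (hD : Red (M := fun k : Bool × ι => M k.2) D) :
    ∃ B : List (Bool × CoprodI M), (∀ b ∈ B, b.2 ≠ 1) ∧ (B.IsChain fun a b => a.1 ≠ b.1) ∧
      flat B = D := by
  induction D with
  | nil => exact ⟨[], by simp, by simp, rfl⟩
  | cons d D ih =>
    obtain ⟨B, h1, h2, rfl⟩ := ih hD.tail
    obtain ⟨⟨s, i⟩, g⟩ := d
    rw [red_cons] at hD
    have hg : g ≠ 1 := hD.1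
    have r1 : Red ([⟨i, g⟩] : List (Σ i, M i)) := red_singleton.2 hg
    by_cases hB : ∃ c B', B = (s, c) :: B'
    · obtain ⟨c, B', rfl⟩ := hB
      have hc : c ≠ 1 := h1 (s, c) (by simp)
      have r2 : Red (⟨i, g⟩ :: nf c) := by
        rw [red_cons]
        refine ⟨hg, red_nf c, ?_⟩
        intro b hb hi
        refine hD.2.2 (tag s b) ?_ ?_
        · obtain ⟨b', l, e⟩ := List.exists_cons_of_ne_nil (nf_ne_nil hc)
          rw [e] at hb
          simp only [List.head?_cons, Option.mem_def, Option.some.injEq] at hb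
          subst hb
          simp [flat, e]
        · show (s, i) = (s, b.1)
          rw [← hi]
      refine ⟨(s, ev (⟨i, g⟩ :: nf c)) :: B', ?_, ?_, ?_⟩
      · intro b hb
        rcases List.mem_cons.1 hb with rfl | hb
        · exact r2.ev_ne (by simp)
        · exact h1 b (List.mem_cons_of_mem _ hb)
      · rw [List.isChain_cons] at h2 ⊢
        exact h2
      · unfold flat
        rw [List.flatMap_cons, List.flatMap_cons, nf_ev r2]
        rfl
    · refine ⟨(s, ev [⟨i, g⟩]) :: B, ?_, ?_, ?_⟩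
      · intro b hb
        rcases List.mem_cons.1 hb with rfl | hb
        · exact r1.ev_ne (by simp)
        · exact h1 b hb
      · rw [List.isChain_cons]
        refine ⟨?_, h2⟩
        intro b hb hbs
        apply hB
        cases B with
        | nil => simp at hb
        | cons b' E' =>
          simp only [List.head?_cons, Option.mem_def, Option.some.injEq] at hb
          subst hb
          exact ⟨b'.2, E', by rw [show s = b'.1 from hbs]⟩
      · unfold flat
        rw [List.flatMap_cons, nf_ev r1]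
        rfl

/-- the shortening moves -/
def Moves : Set (List (Σ k : Bool × ι, M k.2) × List (Σ k : Bool × ι, M k.2)) :=
  Set.range fun p : Bool × Bool × (Λ × Bool) × {q : Fin 10 × Fin 10 // q.1 < q.2} =>
    ((((S p.1).z p.2.2.1).drop p.2.2.2.1.1).map (tag p.1) ++
        (((S p.2.1).z (fl p.2.2.1)).take p.2.2.2.1.2).map (tag p.2.1),
      (linv (((S p.1).z p.2.2.1).take p.2.2.2.1.1)).map (tag p.1) ++
        (linv (((S p.2.1).z (fl p.2.2.1)).drop p.2.2.2.1.2)).map (tag p.2.1))

theorem moves_finite [Finite Λ] : (Moves S).Finite := Set.finite_range _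

theorem moves_len : ∀ m ∈ Moves S, m.2.length < m.1.length := by
  rintro m ⟨⟨s, s', ξ, ⟨i, j⟩, hij⟩, rfl⟩
  have h1 : (i : ℕ) < j := hij
  have h2 := j.2
  simp only [List.length_append, List.length_map, length_linv, List.length_drop, List.length_take,
    Sys.length_z]
  omega

theorem sd_z (s : Bool) (ξ : Λ × Bool) : sd S s (ev ((S s).z ξ)) = bs S (FreeGroup.mk [ξ]) := by
  rw [← sd_φ S s, Sys.φ_cons, Sys.φ_nil, mul_one]

theorem moves_val : ∀ m ∈ Moves S, proj S (ev (M := fun k : Bool × ι => M k.2) m.1) =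
    proj S (ev (M := fun k : Bool × ι => M k.2) m.2) := by
  rintro m ⟨⟨s, s', ξ, ⟨i, j⟩, hij⟩, rfl⟩
  simp only [ev_append, map_mul, proj_tag, ev_linv, map_inv]
  have h1 := sd_z S s ξ
  have h2 := sd_z S s' ξ
  have h3 : sd S s' (ev ((S s').z (fl ξ))) = (sd S s (ev ((S s).z ξ)))⁻¹ := by
    rw [Sys.ev_z_fl, map_inv, h1, h2]
  rw [← List.take_append_drop i ((S s).z ξ), ← List.take_append_drop j ((S s').z (fl ξ)),
    ev_append, ev_append, map_mul, map_mul] at h3
  rw [eq_mul_inv_of_mul_eq h3]
  group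

theorem moves_dehn (D : List (Σ k : Bool × ι, M k.2))
    (hD : Red (M := fun k : Bool × ι => M k.2) D) (hne : D ≠ [])
    (h : proj S (ev (M := fun k : Bool × ι => M k.2) D) = 1) : ∃ m ∈ Moves S, m.1 <:+: D := by
  obtain ⟨B, h1, h2, rfl⟩ := exists_blocks D hD
  rw [proj_flat] at h
  obtain ⟨B₁, a, b, B₂, rfl, ξ, i, j, hij, hj, ⟨p, hp⟩, ⟨q, hq⟩⟩ :=
    dehn_blocks S B (by rintro rfl; exact hne rfl) h1 h2 h
  refine ⟨_, ⟨(a.1, b.1, ξ, ⟨(⟨i, by omega⟩, ⟨j, by omega⟩), hij⟩), rfl⟩,
    flat B₁ ++ p.map (tag a.1), q.map (tag b.1) ++ flat B₂, ?_⟩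
  unfold flat
  rw [List.flatMap_append, List.flatMap_cons, List.flatMap_cons, ← hp, ← hq]
  simp

end Vale.Agent.N186
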