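import Vale.Agent.N186.Torsion
import Vale.Agent.N186.Area
import Vale.Agent.P186.H570.Main

/-! Every hyperbolic group embeds in a hyperbolic group without finite quotients. -/

set_option linter.all false

namespace Vale.Agent.N186

open Monoid Vale.Agent.P186 Vale.Agent.P194

universe u v

section amalgam

variable {ι : Type} {M : ι → Type} [∀ i, Group (M i)] {i₀ i₁ : ι} (hne : i₀ ≠ i₁)
  (x : M i₀) (y : M i₁) (hx : Function.Injective fun n : ℤ => x ^ n) (hy : y ≠ 1)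

include hne hx hy in
theorem mid (σ₀ : Σ i, M i) : ∃ (τ : M i₁) (σ : Σ i, M i), τ ≠ 1 ∧ σ.1 ≠ i₁ ∧ σ.2 ≠ 1 ∧
    (∀ n : ℤ, σ ≠ ⟨i₀, x ^ (2 * n + 1)⟩) ∧
    ∀ (Q : Type) [Group Q] (f : CoprodI M →* Q), f (CoprodI.of x) = 1 → f (CoprodI.of y) = 1 →
      f (CoprodI.of τ) * f (CoprodI.of σ.2) = f (CoprodI.of σ₀.2) := by
  have h2 : x ^ (2 : ℤ) ≠ 1 := by
    intro h
    have : (2 : ℤ) = 0 := hx (by simpa using h)
    omega
  have h3 : ∀ n : ℤ, (⟨i₀, x ^ (2 : ℤ)⟩ : Σ i, M i) ≠ ⟨i₀, x ^ (2 * n + 1)⟩ := by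
    intro n h
    have : (2 : ℤ) = 2 * n + 1 := hx (eq_of_heq (Sigma.mk.inj_iff.1 h).2)
    omega
  by_cases h1 : σ₀.2 = 1
  · refine ⟨y, ⟨i₀, x ^ (2 : ℤ)⟩, hy, hne, h2, h3, ?_⟩
    intro Q _ f fx fy
    simp only [h1, map_one, map_zpow, fx, fy, one_zpow, mul_one]
  by_cases h4 : σ₀.1 = i₁
  · obtain ⟨i, g⟩ := σ₀
    dsimp only at h4
    subst h4
    refine ⟨g, ⟨i₀, x ^ (2 : ℤ)⟩, h1, hne, h2, h3, ?_⟩
    intro Q _ f fx fy
    simp only [map_zpow, fx, one_zpow, mul_one]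
  by_cases h5 : ∃ n : ℤ, σ₀ = ⟨i₀, x ^ n⟩
  · obtain ⟨n, rfl⟩ := h5
    refine ⟨y, ⟨i₀, x ^ (2 : ℤ)⟩, hy, hne, h2, h3, ?_⟩
    intro Q _ f fx fy
    simp only [map_zpow, fx, fy, one_zpow, mul_one]
  · refine ⟨y, σ₀, hy, h4, h1, fun n h => h5 ⟨_, h⟩, ?_⟩
    intro Q _ f fx fy
    rw [fy, one_mul]

include hne hx hy in
theorem exists_sys {Λ : Type} [Finite Λ] (tgt : Λ → Σ i, M i) : ∃ S : Sys M Λ,
    ∀ (Q : Type) [Group Q] (f : CoprodI M →* Q), f (CoprodI.of x) = 1 → f (CoprodI.of y) = 1 →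
      ∀ l, f (ev (S.z (l, true))) = f (CoprodI.of (tgt l).2) := by
  choose τ σ h1 h2 h3 h4 h5 using mid hne x y hx hy
  obtain ⟨c, hc⟩ := Countable.exists_injective_nat (Λ × Bool)
  refine ⟨{ i₀ := i₀, i₁ := i₁, ne := hne, x := x, y := y, xinj := hx, yne := hy, c := c,
            cinj := hc, τ := fun ξ => cond ξ.2 (τ (tgt ξ.1)) y, τne := ?_,
            σ := fun ξ => cond ξ.2 (σ (tgt ξ.1)) (sinv (σ (tgt ξ.1))), σflip := ?_, σ1 := ?_,
            σne := ?_, σodd := ?_ }, ?_⟩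
  · rintro ⟨l, _ | _⟩
    · exact hy
    · exact h1 _
  · rintro ⟨l, _ | _⟩
    · exact (sinv_sinv _).symm
    · rfl
  · rintro ⟨l, _ | _⟩
    · exact h2 _
    · exact h2 _
  · rintro ⟨l, _ | _⟩
    · exact inv_ne_one.2 (h3 _)
    · exact h3 _
  · rintro ⟨l, _ | _⟩ n
    · intro h
      apply h4 (tgt l) (-n - 1)
      have h6 := congrArg sinv h
      simp only [cond_false, sinv_sinv] at h6
      rw [h6]
      show (⟨i₀, (x ^ (2 * n + 1))⁻¹⟩ : Σ i, M i) = ⟨i₀, x ^ (2 * (-n - 1) + 1)⟩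
      rw [← zpow_neg]
      congr 2
      ring
    · exact h4 _ n
  · intro Q _ f fx fy l
    rw [← h5 (tgt l) Q f fx fy]
    simp [Sys.z, Sys.body, Sys.X, Sys.Y, fl, fx, fy]

include hne hx hy in
theorem amalgam [Fintype ι] (P : ∀ i, LinPres (M i)) :
    ∃ (Γ : Type) (_ : Group Γ) (j : Bool → ∀ i, M i →* Γ), Nonempty (LinPres Γ) ∧
      (∀ s i, Function.Injective (j s i)) ∧
      (∀ N : Subgroup Γ, N.Normal → (∀ s, j s i₀ x ∈ N ∧ j s i₁ y ∈ N) → N = ⊤) ∧
      ∀ g : Γ, IsOfFinOrder g → g = 1 ∨ ∃ s i a, IsConj (j s i a) g := by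
  letI : ∀ k, Fintype (P k).L := fun k => (P k).fin
  let tgt : Bool → Bool × Lt P → Σ i, M i := fun s l =>
    if l.1 = s then ⟨l.2.1, (P l.2.1).gen l.2.2⟩ else ⟨i₀, 1⟩
  choose S hS using fun s => exists_sys hne x y hx hy (tgt s)
  refine ⟨PO S, inferInstance, fun s i => (sd S s).comp CoprodI.of, ?_, ?_, ?_, ?_⟩
  · exact linPres_of_dehn (N := fun k : Bool × ι => M k.2) (fun k => P k.2) (proj S) (proj_surj S)
      (Moves S) (moves_finite S) (moves_len S) (moves_val S) (moves_dehn S)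
  · intro s i
    exact (sd_inj S s).comp (CoprodI.of_injective i)
  · intro N hN h
    let q := QuotientGroup.mk' N
    have hq : ∀ g, q g = 1 ↔ g ∈ N := fun g => QuotientGroup.eq_one_iff g
    have h1 : ∀ s l, q (bs S (FreeGroup.mk [(l, true)])) =
        q (sd S s (CoprodI.of (tgt s l).2)) := by
      intro s l
      rw [← sd_z S s]
      exact hS s _ (q.comp (sd S s)) ((hq _).2 (h s).1) ((hq _).2 (h s).2) l
    have h2 : ∀ s i (a : (P i).L), q (sd S s (CoprodI.of ((P i).gen a))) = 1 := by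
      intro s i a
      have e1 := h1 s (s, ⟨i, a⟩)
      have e2 := h1 (!s) (s, ⟨i, a⟩)
      have t1 : tgt s (s, ⟨i, a⟩) = ⟨i, (P i).gen a⟩ := if_pos rfl
      have t2 : tgt (!s) (s, ⟨i, a⟩) = ⟨i₀, 1⟩ := if_neg (by cases s <;> simp)
      rw [t1] at e1
      rw [t2, map_one, map_one, map_one] at e2
      exact e1.symm.trans e2
    have h3 : ∀ s i (a : M i), q (sd S s (CoprodI.of a)) = 1 := by
      intro s i a
      obtain ⟨w, rfl⟩ := (P i).surj a
      have : (q.comp (sd S s)).comp ((CoprodI.of : M i →* CoprodI M).comp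
          (FreeGroup.lift (P i).gen)) = 1 := by
        ext a
        simpa using h2 s i a
      exact DFunLike.congr_fun this w
    have h4 : q.comp (proj S) = 1 := by
      ext k a
      exact h3 k.1 k.2 a
    rw [eq_top_iff]
    intro g _
    obtain ⟨a, rfl⟩ := proj_surj S g
    exact (hq _).1 (DFunLike.congr_fun h4 a)
  · intro g hg
    rcases torsion_po S g hg with h | ⟨s, σ, h⟩
    · exact Or.inl h
    · exact Or.inr ⟨s, σ.1, σ.2, h⟩

end amalgam

/-- the three factors -/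
def Fam (K G : Type) : Option Bool → Type
  | none => K
  | some _ => G

/-- their group structures -/
@[reducible] def famGroup (K G : Type) [hK : Group K] [hG : Group G] : ∀ i, Group (Fam K G i)
  | none => hK
  | some _ => hG

theorem embed (K G : Type) [Group K] [Group G] (hK : IsHyperbolicGroup K) (hG : IsHyperbolicGroup G)
    (g : G) (hg : ¬ IsOfFinOrder g) :
    ∃ (H : Type) (_ : Group H) (j : Bool → K →* H) (j' : Bool × Bool → G →* H),
      IsHyperbolicGroup H ∧ (∀ s, Function.Injective (j s)) ∧ (∀ s, Function.Injective (j' s)) ∧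
      (∀ N : Subgroup H, N.Normal → (∀ s, j' s g ∈ N) → N = ⊤) ∧
      ∀ h : H, IsOfFinOrder h → (∃ s a, IsConj (j s a) h) ∨ ∃ s a, IsConj (j' s a) h := by
  letI := famGroup K G
  obtain ⟨PK⟩ := linPres_of_hyp hK
  obtain ⟨PG⟩ := linPres_of_hyp hG
  let P : ∀ i, LinPres (Fam K G i) := fun i => match i with
    | none => PK
    | some _ => PG
  obtain ⟨Γ, _, j, ⟨PΓ⟩, h1, h2, h3⟩ := amalgam (M := Fam K G) (i₀ := some false) (i₁ := some true)
    (by simp) g g (injective_zpow_iff_not_isOfFinOrder.2 hg)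
    (fun h => hg (by rw [show g = 1 from h]; exact IsOfFinOrder.one)) P
  obtain ⟨H, _, hH, ⟨e⟩⟩ := PΓ.exists_hyp
  refine ⟨H, inferInstance, fun s => e.symm.toMonoidHom.comp (j s none),
    fun s => e.symm.toMonoidHom.comp (j s.1 (some s.2)), hH, fun s => e.symm.injective.comp (h1 _ _),
    fun s => e.symm.injective.comp (h1 _ _), ?_, ?_⟩
  · intro N hN h
    have h4 := h2 (N.comap e.symm.toMonoidHom) (hN.comap _)
      fun s => ⟨h (s, false), h (s, true)⟩
    rw [eq_top_iff]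
    intro a _
    have h5 : e a ∈ N.comap e.symm.toMonoidHom := by rw [h4]; trivial
    simpa using h5
  · intro h hh
    rcases h3 (e h) (e.toMonoidHom.isOfFinOrder hh) with h4 | ⟨s, i, a, h4⟩
    · left
      refine ⟨true, 1, ?_⟩
      rw [map_one, e.map_eq_one_iff.1 h4]
    · have h5 := e.symm.toMonoidHom.map_isConj h4
      simp only [MulEquiv.toMonoidHom_eq_coe, MonoidHom.coe_coe, MulEquiv.symm_apply_apply] at h5
      rcases i with _ | b
      · exact Or.inl ⟨s, a, h5⟩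
      · exact Or.inr ⟨(s, b), a, h5⟩

theorem orderOf_isConj {H : Type} [Group H] {a b : H} (h : IsConj a b) : orderOf a = orderOf b := by
  obtain ⟨c, rfl⟩ := isConj_iff.1 h
  exact ((MulAut.conj c).orderOf_eq a).symm

theorem main2 (K : Type) [Group K] (hK : IsHyperbolicGroup K) :
    ∃ (H : Type) (_ : Group H) (j : K →* H), IsHyperbolicGroup H ∧ Function.Injective j ∧
      Infinite H ∧ (∀ U : Subgroup H, U.FiniteIndex → U = ⊤) ∧
      (∀ (Q : Type u) [Group Q], IsSofic Q → ∀ (f : H →* Q) (h : H), f h = 1) ∧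
      (∀ (k : Type v) [Field k] (n : ℕ) (f : H →* Matrix.GeneralLinearGroup (Fin n) k) (h : H),
        f h = 1) ∧
      ∀ h : H, IsOfFinOrder h → ∃ a : K, orderOf a = orderOf h := by
  obtain ⟨G, _, htf, hG, _, _, ⟨g, hg1, hs, hl⟩, _⟩ := H570.main.{u, v, 0}
  have htf' : ∀ a : G, IsOfFinOrder a → a = 1 := fun a ha => by
    obtain ⟨m, hm, e⟩ := isOfFinOrder_iff_pow_eq_one.1 ha
    exact htf a m hm e
  have hg : ¬ IsOfFinOrder g := fun h => hg1 (htf' g h)
  obtain ⟨H, _, j, j', hH, h1, h2, h3, h4⟩ := embed K G hK hG g hg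
  have hsof : ∀ (Q : Type u) [Group Q], IsSofic Q → ∀ (f : H →* Q) (h : H), f h = 1 := by
    intro Q _ hQ f h
    have := h3 f.ker inferInstance fun s => hs Q hQ (f.comp (j' s))
    exact MonoidHom.mem_ker.1 (by rw [this]; trivial)
  refine ⟨H, inferInstance, j true, hH, h1 true, ?_, ?_, hsof, ?_, ?_⟩
  · exact Infinite.of_injective (fun n : ℤ => j' (true, true) (g ^ n))
      ((h2 _).comp (injective_zpow_iff_not_isOfFinOrder.2 hg))
  · intro U hU
    rw [eq_top_iff]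
    intro h _
    apply U.normalCore_le
    have h5 := hsof (ULift.{u} (H ⧸ U.normalCore)) H570.isSofic_of_finite
      (MulEquiv.ulift.symm.toMonoidHom.comp (QuotientGroup.mk' U.normalCore)) h
    have h6 : QuotientGroup.mk' U.normalCore h = 1 := MulEquiv.ulift.symm.map_eq_one_iff.1 h5
    exact (QuotientGroup.eq_one_iff h).1 h6
  · intro k _ n f h
    have := h3 f.ker inferInstance fun s => hl k n (f.comp (j' s))
    exact MonoidHom.mem_ker.1 (by rw [this]; trivial)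
  · intro h hh
    rcases h4 h hh with ⟨s, a, h5⟩ | ⟨s, a, h5⟩
    · exact ⟨a, by rw [← orderOf_isConj h5, orderOf_injective _ (h1 s)]⟩
    · have h6 : a = 1 := htf' a ((h2 s).isOfFinOrder_iff.1 (h5.symm.isOfFinOrder hh))
      exact ⟨1, by rw [← orderOf_isConj h5, h6, map_one, orderOf_one, orderOf_one]⟩

theorem main1 : ¬ ∀ (G : Type) [Group G], IsHyperbolicGroup G → Group.ResiduallyFinite G := by
  obtain ⟨G, _, _, hG, h, _⟩ := H570.main.{0, 0, 0}
  exact fun hh => h (hh G hG)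

theorem main3 (m : ℕ) (hm : 0 < m) : ∃ (H : Type) (_ : Group H), IsHyperbolicGroup H ∧
    ∀ U : Subgroup H, U.FiniteIndex → ∃ h ∈ U, orderOf h = m := by
  haveI : NeZero m := ⟨hm.ne'⟩
  obtain ⟨H, _, j, hH, hj, _, hU, _⟩ := main2.{0, 0} (Multiplicative (ZMod m)) hyp_of_finite
  refine ⟨H, inferInstance, hH, fun U h => ⟨j (Multiplicative.ofAdd 1), by rw [hU U h]; trivial, ?_⟩⟩
  rw [orderOf_injective _ hj, orderOf_ofAdd_eq_addOrderOf, ZMod.addOrderOf_one]

end Vale.Agent.N186
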