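import Mathlib.Data.Set.Finite.List
import Vale.Agent.P201.Bd3.B4

/-! Finite presentations with a linear isoperimetric inequality; hyperbolic groups have one
(Dehn presentation). -/

set_option linter.all false

namespace Vale.Agent.N186

open Vale.Agent.P186 Vale.Agent.P186.Hyp

section area

variable {L : Type} {R : Set (FreeGroup L)}

theorem ar_mul {j k : ℕ} {u v : FreeGroup L} (hu : Ar R j u) (hv : Ar R k v) :
    Ar R (j + k) (u * v) := by
  induction hu with
  | nil => simpa using hv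
  | cons j u w r hr _ ih =>
    have := Ar.cons _ _ w r hr ih
    rw [show j + 1 + k = j + k + 1 by omega, mul_assoc]
    exact this
  | cons' j u w r hr _ ih =>
    have := Ar.cons' _ _ w r hr ih
    rw [show j + 1 + k = j + k + 1 by omega, mul_assoc]
    exact this

theorem ar_conj {k : ℕ} {u : FreeGroup L} (hu : Ar R k u) (a : FreeGroup L) :
    Ar R k (a * u * a⁻¹) := by
  induction hu with
  | nil => simpa using Ar.nil
  | cons j u w r hr _ ih =>
    have := Ar.cons _ _ (a * w) r hr ih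
    have e : a * (w * r * w⁻¹ * u) * a⁻¹ = a * w * r * (a * w)⁻¹ * (a * u * a⁻¹) := by group
    rw [e]; exact this
  | cons' j u w r hr _ ih =>
    have := Ar.cons' _ _ (a * w) r hr ih
    have e : a * (w * r⁻¹ * w⁻¹ * u) * a⁻¹ = a * w * r⁻¹ * (a * w)⁻¹ * (a * u * a⁻¹) := by group
    rw [e]; exact this

theorem ar_inv {k : ℕ} {u : FreeGroup L} (hu : Ar R k u) : Ar R k u⁻¹ := by
  induction hu with
  | nil => simpa using Ar.nil
  | cons j u w r hr _ ih =>
    have h1 : Ar R (0 + 1) (w * r⁻¹ * w⁻¹ * 1) := Ar.cons' _ _ w r hr Ar.nil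
    have := ar_mul ih h1
    have e : (w * r * w⁻¹ * u)⁻¹ = u⁻¹ * (w * r⁻¹ * w⁻¹ * 1) := by group
    rw [e]; exact this
  | cons' j u w r hr _ ih =>
    have h1 : Ar R (0 + 1) (w * r * w⁻¹ * 1) := Ar.cons _ _ w r hr Ar.nil
    have := ar_mul ih h1
    have e : (w * r⁻¹ * w⁻¹ * u)⁻¹ = u⁻¹ * (w * r * w⁻¹ * 1) := by group
    rw [e]; exact this

theorem ar_map {L' : Type} {R' : Set (FreeGroup L')} (f : FreeGroup L →* FreeGroup L')
    (hf : ∀ r ∈ R, f r ∈ R') {k : ℕ} {u : FreeGroup L} (hu : Ar R k u) : Ar R' k (f u) := by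
  induction hu with
  | nil => simpa using Ar.nil
  | cons j u w r hr _ ih =>
    have := Ar.cons _ _ (f w) _ (hf r hr) ih
    simpa using this
  | cons' j u w r hr _ ih =>
    have := Ar.cons' _ _ (f w) _ (hf r hr) ih
    simpa using this

theorem ar_normal {k : ℕ} {u : FreeGroup L} (hu : Ar R k u) : u ∈ Subgroup.normalClosure R := by
  induction hu with
  | nil => exact one_mem _
  | cons j u w r hr _ ih =>
    exact mul_mem (Subgroup.normalClosure_normal.conj_mem _ (Subgroup.subset_normalClosure hr) w) ih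
  | cons' j u w r hr _ ih =>
    exact mul_mem (Subgroup.normalClosure_normal.conj_mem _
      (inv_mem (Subgroup.subset_normalClosure hr)) w) ih

/-- `u` and `v` differ by at most `k` relators -/
def Eqv (R : Set (FreeGroup L)) (k : ℕ) (u v : FreeGroup L) : Prop :=
  ∃ j, j ≤ k ∧ Ar R j (u * v⁻¹)

theorem Eqv.refl (u : FreeGroup L) : Eqv R 0 u u := ⟨0, le_rfl, by simpa using Ar.nil⟩

theorem Eqv.mono {j k : ℕ} {u v : FreeGroup L} (h : Eqv R j u v) (hjk : j ≤ k) : Eqv R k u v := by
  obtain ⟨i, hi, h⟩ := h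
  exact ⟨i, hi.trans hjk, h⟩

theorem Eqv.trans {j k : ℕ} {u v w : FreeGroup L} (h : Eqv R j u v) (h' : Eqv R k v w) :
    Eqv R (j + k) u w := by
  obtain ⟨i, hi, h⟩ := h
  obtain ⟨i', hi', h'⟩ := h'
  refine ⟨i + i', by omega, ?_⟩
  have := ar_mul h h'
  rwa [show u * v⁻¹ * (v * w⁻¹) = u * w⁻¹ by group] at this

theorem Eqv.ctx {k : ℕ} {u v : FreeGroup L} (h : Eqv R k u v) (a b : FreeGroup L) :
    Eqv R k (a * u * b) (a * v * b) := by
  obtain ⟨i, hi, h⟩ := h
  refine ⟨i, hi, ?_⟩
  have := ar_conj h a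
  rwa [show a * (u * v⁻¹) * a⁻¹ = a * u * b * (a * v * b)⁻¹ by group] at this

theorem Eqv.mul {j k : ℕ} {u v u' v' : FreeGroup L} (h : Eqv R j u v) (h' : Eqv R k u' v') :
    Eqv R (j + k) (u * u') (v * v') := by
  have h1 := h.ctx 1 u'
  have h2 := h'.ctx v 1
  simp only [one_mul, mul_one] at h1 h2
  exact h1.trans h2

theorem Eqv.of_mem {u v : FreeGroup L} (h : u * v⁻¹ ∈ R) : Eqv R 1 u v := by
  refine ⟨1, le_rfl, ?_⟩
  have := Ar.cons (R := R) 0 1 1 _ h Ar.nil
  simpa using this

theorem Eqv.map {L' : Type} {R' : Set (FreeGroup L')} (f : FreeGroup L →* FreeGroup L')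
    (hf : ∀ r ∈ R, f r ∈ R') {k : ℕ} {u v : FreeGroup L} (h : Eqv R k u v) :
    Eqv R' k (f u) (f v) := by
  obtain ⟨i, hi, h⟩ := h
  refine ⟨i, hi, ?_⟩
  simpa using ar_map f hf h

end area

/-- a finite presentation of `Γ` with a linear isoperimetric inequality -/
structure LinPres (Γ : Type) [Group Γ] where
  L : Type
  fin : Fintype L
  gen : L → Γ
  R : Set (FreeGroup L)
  A : ℕ
  finR : R.Finite
  rel : ∀ r ∈ R, FreeGroup.lift gen r = 1
  surj : Function.Surjective (FreeGroup.lift gen)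
  area : ∀ u : List (L × Bool), FreeGroup.lift gen (FreeGroup.mk u) = 1 →
    Eqv R (A * (u.length + 1)) (FreeGroup.mk u) 1

theorem LinPres.exists_hyp {Γ : Type} [Group Γ] (P : LinPres Γ) :
    ∃ (H : Type) (_ : Group H), IsHyperbolicGroup H ∧ Nonempty (H ≃* Γ) := by
  letI := P.fin
  let θ : PresentedGroup P.R →* Γ := PresentedGroup.toGroup P.rel
  have hθ : ∀ u, θ (PresentedGroup.mk P.R u) = FreeGroup.lift P.gen u := fun u => rfl
  refine ⟨PresentedGroup P.R, inferInstance, ?_, ⟨MulEquiv.ofBijective θ ⟨?_, ?_⟩⟩⟩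
  · refine hyperbolic_of lin graph conn P.R P.finR P.A fun u hu => ?_
    have h1 : FreeGroup.lift P.gen (FreeGroup.mk u) = 1 := by rw [← hθ, hu, map_one]
    obtain ⟨j, hj, h⟩ := P.area u h1
    exact ⟨j, hj, by simpa using h⟩
  · rw [injective_iff_map_eq_one]
    intro a ha
    obtain ⟨u, rfl⟩ := PresentedGroup.mk_surjective P.R a
    obtain ⟨u, rfl⟩ := Quot.exists_rep u
    obtain ⟨j, hj, h⟩ := P.area u ha
    have h2 := ar_normal h
    simp only [inv_one, mul_one] at h2
    exact PresentedGroup.mk_eq_one_iff.2 h2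
  · intro g
    obtain ⟨u, rfl⟩ := P.surj g
    exact ⟨PresentedGroup.mk P.R u, rfl⟩

theorem LinPres.eqv {Γ : Type} [Group Γ] (P : LinPres Γ) (u v : List (P.L × Bool))
    (h : FreeGroup.lift P.gen (FreeGroup.mk u) = FreeGroup.lift P.gen (FreeGroup.mk v)) :
    Eqv P.R (P.A * (u.length + v.length + 1)) (FreeGroup.mk u) (FreeGroup.mk v) := by
  have e : FreeGroup.mk (u ++ FreeGroup.invRev v) = FreeGroup.mk u * (FreeGroup.mk v)⁻¹ := by
    rw [← FreeGroup.mul_mk, FreeGroup.inv_mk]
  obtain ⟨j, hj, hA⟩ := P.area (u ++ FreeGroup.invRev v) (by rw [e, map_mul, map_inv, h]; simp)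
  refine ⟨j, ?_, ?_⟩
  · simpa using hj
  · rw [e] at hA
    simpa using hA

/-! ### local geodesics in a thin graph -/

theorem dist_split {V : Type} {Γ : SimpleGraph V} (hc : Γ.Connected) {x y w : V} (p : Γ.Walk x y)
    (hp : p.length = Γ.dist x y) (hw : w ∈ p.support) :
    Γ.dist x w + Γ.dist w y = Γ.dist x y := by
  obtain ⟨q, r, rfl⟩ := SimpleGraph.Walk.mem_support_iff_exists_append.1 hw
  have h1 := SimpleGraph.dist_le q
  have h2 := SimpleGraph.dist_le r
  have h3 : Γ.dist x y ≤ Γ.dist x w + Γ.dist w y := hc.dist_triangle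
  rw [SimpleGraph.Walk.length_append] at hp
  omega

theorem loc_geod {V : Type} {Γ : SimpleGraph V} (hc : Γ.Connected) {δ : ℕ}
    (hthin : Vale.Agent.P186.ThinTriangles Γ δ) (n : ℕ) (pt : ℕ → V) (h0 : pt n = pt 0)
    (hloc : ∀ i j, i ≤ j → j ≤ n → j - i ≤ 2 * (2 * δ + 1) → Γ.dist (pt i) (pt j) = j - i) :
    n = 0 := by
  by_contra hn
  obtain ⟨t, ht, hmax⟩ := Finset.exists_max_image (Finset.range (n + 1))
    (fun i => Γ.dist (pt 0) (pt i)) ⟨0, by simp⟩
  rw [Finset.mem_range] at ht
  have hmax' : ∀ i, i ≤ n → Γ.dist (pt 0) (pt i) ≤ Γ.dist (pt 0) (pt t) :=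
    fun i hi => hmax i (Finset.mem_range.2 (by omega))
  by_cases h1 : t ≤ 2 * δ + 1
  · by_cases h2 : t = n
    · have e1 := hloc 0 1 (by omega) (by omega) (by omega)
      have e2 := hmax' 1 (by omega)
      rw [h2, h0, SimpleGraph.dist_self] at e2
      omega
    · have e1 := hloc 0 (t + 1) (by omega) (by omega) (by omega)
      have e2 := hmax' (t + 1) (by omega)
      have e3 := hloc 0 t (by omega) (by omega) (by omega)
      omega
  by_cases h2 : n - t ≤ 2 * δ + 1
  · have e1 := hloc (t - 1) n (by omega) (by omega) (by omega)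
    have e2 := hmax' (t - 1) (by omega)
    have e3 := hloc t n (by omega) (by omega) (by omega)
    rw [h0, SimpleGraph.dist_comm] at e1 e3
    omega
  set a := pt (t - (2 * δ + 1)) with ha
  set b := pt (t + (2 * δ + 1)) with hb
  have e1 : Γ.dist a (pt t) = 2 * δ + 1 := by
    rw [ha, hloc _ _ (by omega) (by omega) (by omega)]; omega
  have e2 : Γ.dist (pt t) b = 2 * δ + 1 := by
    rw [hb, hloc _ _ (by omega) (by omega) (by omega)]; omega
  have e3 : Γ.dist a b = 2 * (2 * δ + 1) := by
    rw [ha, hb, hloc _ _ (by omega) (by omega) (by omega)]; omega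
  have e4 : Γ.dist (pt 0) a ≤ Γ.dist (pt 0) (pt t) := hmax' _ (by omega)
  have e5 : Γ.dist (pt 0) b ≤ Γ.dist (pt 0) (pt t) := hmax' _ (by omega)
  obtain ⟨p1, hp1⟩ := hc.exists_walk_length_eq_dist a (pt t)
  obtain ⟨p2, hp2⟩ := hc.exists_walk_length_eq_dist (pt t) b
  obtain ⟨q, hq⟩ := hc.exists_walk_length_eq_dist b (pt 0)
  obtain ⟨r, hr⟩ := hc.exists_walk_length_eq_dist (pt 0) a
  obtain ⟨w, hw, hd⟩ := hthin a b (pt 0) (p1.append p2) q r
    (by rw [SimpleGraph.Walk.length_append]; omega) hq hr (pt t)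
    (SimpleGraph.Walk.mem_support_iff_exists_append.2 ⟨p1, p2, rfl⟩)
  have t1 : Γ.dist (pt 0) (pt t) ≤ Γ.dist (pt 0) w + Γ.dist w (pt t) := hc.dist_triangle
  have c1 : Γ.dist w (pt t) = Γ.dist (pt t) w := SimpleGraph.dist_comm
  rcases hw with hw | hw
  · have s := dist_split hc q hq hw
    have t2 : Γ.dist (pt t) b ≤ Γ.dist (pt t) w + Γ.dist w b := hc.dist_triangle
    have c2 : Γ.dist w b = Γ.dist b w := SimpleGraph.dist_comm
    have c3 : Γ.dist w (pt 0) = Γ.dist (pt 0) w := SimpleGraph.dist_comm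
    have c4 : Γ.dist b (pt 0) = Γ.dist (pt 0) b := SimpleGraph.dist_comm
    omega
  · have s := dist_split hc r hr hw
    have t2 : Γ.dist a (pt t) ≤ Γ.dist a w + Γ.dist w (pt t) := hc.dist_triangle
    have c2 : Γ.dist a w = Γ.dist w a := SimpleGraph.dist_comm
    omega

/-! ### words and the Cayley graph -/

section cayley

variable {Γ : Type} [Group Γ] (S : Finset Γ)

/-- value of a word -/
def wv (u : List (S × Bool)) : Γ := FreeGroup.lift (fun s : S => (s : Γ)) (FreeGroup.mk u)

theorem wv_append (u v : List (S × Bool)) : wv S (u ++ v) = wv S u * wv S v := by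
  unfold wv
  rw [← FreeGroup.mul_mk, map_mul]

theorem wv_nil : wv S [] = 1 := by
  unfold wv
  rw [← FreeGroup.one_eq_mk, map_one]

theorem wv_true (s : S) : wv S [(s, true)] = s := by
  simp [wv, FreeGroup.lift_mk]

theorem wv_false (s : S) : wv S [(s, false)] = (s : Γ)⁻¹ := by
  simp [wv, FreeGroup.lift_mk]

theorem walk_wv {x y : Γ} (p : (SimpleGraph.mulCayley (S : Set Γ)).Walk x y) :
    ∃ u : List (S × Bool), u.length = p.length ∧ x * wv S u = y := by
  induction p with
  | nil => exact ⟨[], rfl, by rw [wv_nil, mul_one]⟩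
  | @cons a b c h p ih =>
    obtain ⟨u, hu, e⟩ := ih
    obtain ⟨_, g, hg, h | h⟩ := (SimpleGraph.mulCayley_adj' _ _ _).1 h
    · refine ⟨[(⟨g, hg⟩, true)] ++ u, by simp [hu], ?_⟩
      rw [wv_append, wv_true, ← mul_assoc, h, e]
    · refine ⟨[(⟨g, hg⟩, false)] ++ u, by simp [hu], ?_⟩
      rw [wv_append, wv_false, ← mul_assoc, h, mul_inv_cancel_right, e]

theorem dist_wv (hc : (SimpleGraph.mulCayley (S : Set Γ)).Connected) (u : List (S × Bool)) :
    ∀ x : Γ, (SimpleGraph.mulCayley (S : Set Γ)).dist x (x * wv S u) ≤ u.length := by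
  induction u with
  | nil => intro x; simp [wv_nil]
  | cons a u ih =>
    intro x
    have e : wv S (a :: u) = wv S [a] * wv S u := wv_append S [a] u
    have h1 : (SimpleGraph.mulCayley (S : Set Γ)).dist x (x * wv S [a]) ≤ 1 := by
      by_cases h : x = x * wv S [a]
      · rw [← h]; simp
      · have : (SimpleGraph.mulCayley (S : Set Γ)).Adj x (x * wv S [a]) := by
          rw [SimpleGraph.mulCayley_adj']
          obtain ⟨s, _ | _⟩ := a
          · refine ⟨h, s, s.2, Or.inr ?_⟩
            rw [wv_false, inv_mul_cancel_right]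
          · refine ⟨h, s, s.2, Or.inl ?_⟩
            rw [wv_true]
        exact (SimpleGraph.dist_le this.toWalk).trans (by simp)
    have h2 := ih (x * wv S [a])
    have h3 : (SimpleGraph.mulCayley (S : Set Γ)).dist x (x * wv S [a] * wv S u) ≤ _ :=
      hc.dist_triangle (v := x * wv S [a])
    rw [e, ← mul_assoc, List.length_cons]
    omega

theorem dehn_word (hc : (SimpleGraph.mulCayley (S : Set Γ)).Connected) {δ : ℕ}
    (hthin : Vale.Agent.P186.ThinTriangles (SimpleGraph.mulCayley (S : Set Γ)) δ)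
    (u : List (S × Bool)) (hu : wv S u = 1) (hne : u ≠ []) :
    ∃ a v b v' : List (S × Bool), u = a ++ v ++ b ∧ v.length ≤ 2 * (2 * δ + 1) ∧
      v'.length < v.length ∧ wv S v' = wv S v := by
  by_contra hcon
  apply hne
  rw [← List.length_eq_zero_iff]
  refine loc_geod hc hthin u.length (fun i => wv S (u.take i)) (by simp [hu, wv_nil]) ?_
  intro i j hij hj hd
  set v := (u.take j).drop i with hv
  have hl : v.length = j - i := by
    rw [hv, List.length_drop, List.length_take]; omega
  have e1 : u.take j = u.take i ++ v := by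
    have := List.take_append_drop i (u.take j)
    rw [List.take_take, min_eq_left hij] at this
    exact this.symm
  have e2 : wv S (u.take j) = wv S (u.take i) * wv S v := by rw [e1, wv_append]
  have h1 := dist_wv S hc v (wv S (u.take i))
  rw [← e2] at h1
  refine le_antisymm (by omega) ?_
  by_contra hlt
  obtain ⟨p, hp⟩ := hc.exists_walk_length_eq_dist (wv S (u.take i)) (wv S (u.take j))
  obtain ⟨v', hv', e⟩ := walk_wv S p
  refine hcon ⟨u.take i, v, u.drop j, v', ?_, by omega, by omega, ?_⟩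
  · rw [← e1, List.take_append_drop]
  · rw [e2] at e
    exact mul_left_cancel e

end cayley

theorem linPres_of_hyp {Γ : Type} [Group Γ] (h : IsHyperbolicGroup Γ) : Nonempty (LinPres Γ) := by
  classical
  obtain ⟨S, hS, δ, hthin⟩ := h
  have hc := conn Γ S hS
  let R : Set (FreeGroup S) := FreeGroup.mk ''
    {u : List (S × Bool) | u.length ≤ 4 * (2 * δ + 1) ∧ wv S u = 1}
  refine ⟨{ L := S, fin := inferInstance, gen := fun s => s, R := R, A := 1, finR := ?_, rel := ?_,
            surj := ?_, area := ?_ }⟩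
  · exact ((List.finite_length_le _ _).subset fun u hu => hu.1).image _
  · rintro r ⟨u, hu, rfl⟩
    exact hu.2
  · intro g
    obtain ⟨p⟩ := hc.preconnected 1 g
    obtain ⟨u, _, e⟩ := walk_wv S p
    exact ⟨FreeGroup.mk u, by rw [one_mul] at e; exact e⟩
  · have key : ∀ n, ∀ u : List (S × Bool), u.length ≤ n → wv S u = 1 →
        Eqv R n (FreeGroup.mk u) 1 := by
      intro n
      induction n with
      | zero =>
        intro u hu _
        have : u = [] := List.length_eq_zero_iff.1 (by omega)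
        subst this
        exact Eqv.refl _
      | succ n ih =>
        intro u hu h1
        by_cases hne : u = []
        · subst hne
          exact (Eqv.refl _).mono (by omega)
        obtain ⟨a, v, b, v', rfl, hl, hlt, e⟩ := dehn_word S hc hthin u h1 hne
        have h2 : Eqv R 1 (FreeGroup.mk v) (FreeGroup.mk v') := by
          apply Eqv.of_mem
          refine ⟨v ++ FreeGroup.invRev v', ⟨by simp; omega, ?_⟩, ?_⟩
          · rw [wv_append]
            have : wv S (FreeGroup.invRev v') = (wv S v')⁻¹ := by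
              unfold wv
              rw [← FreeGroup.inv_mk, map_inv]
            rw [this, e, mul_inv_cancel]
          · rw [← FreeGroup.mul_mk, FreeGroup.inv_mk]
        have h3 := ih (a ++ v' ++ b) (by simp at hu ⊢; omega)
          (by simp only [wv_append] at h1 ⊢; rw [e, h1])
        have h4 := (h2.ctx (FreeGroup.mk a) (FreeGroup.mk b))
        simp only [FreeGroup.mul_mk] at h4
        exact (h4.trans h3).mono (by omega)
    intro u hu
    exact (key u.length u le_rfl hu).mono (by omega)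

theorem hyp_of_finite {Γ : Type} [Group Γ] [Finite Γ] : IsHyperbolicGroup Γ := by
  classical
  letI := Fintype.ofFinite Γ
  refine ⟨Finset.univ, by simp, Finset.univ.sup fun p : Γ × Γ =>
    (SimpleGraph.mulCayley ((Finset.univ : Finset Γ) : Set Γ)).dist p.1 p.2, ?_⟩
  intro x y z p q r _ _ _ v _
  refine ⟨y, Or.inl q.start_mem_support, ?_⟩
  exact Finset.le_sup (f := fun p : Γ × Γ =>
    (SimpleGraph.mulCayley ((Finset.univ : Finset Γ) : Set Γ)).dist p.1 p.2)
    (Finset.mem_univ (v, y))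

end Vale.Agent.N186
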