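import Mathlib.GroupTheory.OrderOfElement
import Vale.Agent.N186.Dehn

/-! Elements of finite order of the amalgam are conjugate into a factor. -/

set_option linter.all false

namespace Vale.Agent.N186

open Monoid

theorem chain_nbr {T : Type} {r : T → T → Prop} : ∀ (L : List T), 2 ≤ L.length → L.IsChain r →
    ∀ e ∈ L, ∃ q, r e q ∨ r q e := by
  intro L
  induction L with
  | nil => intro h; simp at h
  | cons a L ih =>
    intro h hc e he
    cases L with
    | nil => simp at h
    | cons b L =>
      rw [List.isChain_cons_cons] at hc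
      rcases List.mem_cons.1 he with rfl | he
      · exact ⟨b, Or.inl hc.1⟩
      · cases L with
        | nil =>
          rw [List.mem_singleton.1 he]
          exact ⟨a, Or.inr hc.1⟩
        | cons c L => exact ih (by simp) hc.2 e he

theorem torsion_abs {T Γ : Type} [Group Γ] (v : T → Γ)
    (h : ∀ L : List T, 2 ≤ L.length → L.IsChain (fun p q => ¬ ∃ c, v c = v p * v q) →
      (L.map v).prod ≠ 1) :
    ∀ (n : ℕ) (L : List T), L.length ≤ n → IsOfFinOrder (L.map v).prod →
      (L.map v).prod = 1 ∨ ∃ a, IsConj (v a) (L.map v).prod := by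
  intro n
  induction n with
  | zero =>
    intro L hL _
    left
    rw [List.length_eq_zero_iff.1 (Nat.le_zero.1 hL)]
    rfl
  | succ n ih =>
    intro L hL hf
    cases L with
    | nil => exact Or.inl rfl
    | cons a L =>
    rcases List.eq_nil_or_concat L with rfl | ⟨l, b, rfl⟩
    · refine Or.inr ⟨a, ?_⟩
      rw [List.map_singleton, List.prod_singleton]
    rw [List.concat_eq_append] at hL hf ⊢
    by_cases h1 : ∃ c, v c = v b * v a
    · obtain ⟨c, hc⟩ := h1
      have hj : IsConj ((l ++ [c]).map v).prod ((a :: (l ++ [b])).map v).prod := by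
        rw [isConj_iff]
        refine ⟨v a, ?_⟩
        simp [hc, mul_assoc]
      rcases ih (l ++ [c]) (by simp at hL ⊢; omega) (hj.symm.isOfFinOrder hf) with h2 | ⟨d, h2⟩
      · rw [h2] at hj
        exact Or.inl (isConj_one_right.1 hj)
      · exact Or.inr ⟨d, h2.trans hj⟩
    by_cases h2 : (a :: (l ++ [b])).IsChain fun p q => ¬ ∃ c, v c = v p * v q
    · exfalso
      have key : ∀ m : ℕ, ∃ L' : List T, 2 ≤ L'.length ∧ L'.head? = some a ∧
          L'.IsChain (fun p q => ¬ ∃ c, v c = v p * v q) ∧
          (L'.map v).prod = ((a :: (l ++ [b])).map v).prod ^ (m + 1) := by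
        intro m
        induction m with
        | zero => exact ⟨a :: (l ++ [b]), by simp, rfl, h2, by simp⟩
        | succ m ihm =>
          obtain ⟨L', e1, e2, e3, e4⟩ := ihm
          refine ⟨(a :: (l ++ [b])) ++ L', by simp; omega, rfl, ?_, ?_⟩
          · rw [List.isChain_append]
            refine ⟨h2, e3, ?_⟩
            intro p hp q hq
            rw [e2] at hq
            rw [← List.cons_append, List.getLast?_append] at hp
            simp only [List.getLast?_singleton, Option.some_or, Option.mem_def,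
              Option.some.injEq] at hp hq
            subst hp hq
            exact h1
          · rw [List.map_append, List.prod_append, e4, ← pow_succ']
      obtain ⟨m, hm, e⟩ := isOfFinOrder_iff_pow_eq_one.1 hf
      obtain ⟨L', e1, _, e3, e4⟩ := key (m - 1)
      rw [show m - 1 + 1 = m by omega, e] at e4
      exact h L' e1 e3 e4
    · rw [List.isChain_iff_forall_rel_of_append_cons_cons] at h2
      push Not at h2
      obtain ⟨p, q, l₁, l₂, e, c, hc⟩ := h2
      have e2 : ((a :: (l ++ [b])).map v).prod = ((l₁ ++ c :: l₂).map v).prod := by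
        rw [e]; simp [hc, mul_assoc]
      have e3 := congrArg List.length e
      rw [e2] at hf ⊢
      exact ih _ (by simp at hL e3 ⊢; omega) hf

variable {ι : Type} {M : ι → Type} [∀ i, Group (M i)]

theorem torsion_free_prod (g : CoprodI M) (hg : IsOfFinOrder g) :
    g = 1 ∨ ∃ σ : Σ i, M i, IsConj (CoprodI.of σ.2) g := by
  have key := torsion_abs (fun σ : Σ i, M i => (CoprodI.of σ.2 : CoprodI M)) ?_ _ (nf g) le_rfl
  · have e : ((nf g).map fun σ : Σ i, M i => (CoprodI.of σ.2 : CoprodI M)).prod = g := ev_nf g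
    rw [e] at key
    exact key hg
  · intro L hL hc
    refine Red.ev_ne ⟨?_, hc.imp ?_⟩ (by rintro rfl; simp at hL)
    · intro e he h1
      obtain ⟨q, hq | hq⟩ := chain_nbr L hL hc e he
      · exact hq ⟨q, by rw [h1, map_one, one_mul]⟩
      · exact hq ⟨q, by rw [h1, map_one, mul_one]⟩
    · rintro ⟨i, a⟩ ⟨j, b⟩ hab hij
      dsimp only at hij
      subst hij
      exact hab ⟨⟨i, a * b⟩, map_mul _ _ _⟩

variable {Λ : Type} (S : Bool → Sys M Λ)

theorem torsion_po (g : PO S) (hg : IsOfFinOrder g) :
    g = 1 ∨ ∃ (s : Bool) (σ : Σ i, M i), IsConj (sd S s (CoprodI.of σ.2)) g := by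
  obtain ⟨a, rfl⟩ := proj_surj S g
  obtain ⟨B, _, _, hB⟩ := exists_blocks (nf a) (red_nf a)
  have e : (B.map fun b : Bool × CoprodI M => sd S b.1 b.2).prod = proj S a := by
    have := proj_flat S B
    rw [hB, ev_nf] at this
    exact this.symm
  have key := torsion_abs (fun b : Bool × CoprodI M => sd S b.1 b.2) ?_ _ B le_rfl
  · rw [e] at key
    rcases key hg with h | ⟨⟨s, c⟩, h⟩
    · exact Or.inl h
    · have h1 : IsOfFinOrder c := (sd_inj S s).isOfFinOrder_iff.1 (h.symm.isOfFinOrder hg)
      rcases torsion_free_prod c h1 with h2 | ⟨σ, h2⟩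
      · left
        dsimp only at h
        rw [h2, map_one] at h
        exact isConj_one_right.1 h
      · exact Or.inr ⟨s, σ, ((sd S s).map_isConj h2).trans h⟩
  · intro L hL hc h1
    have hG : Good S L := by
      refine ⟨?_, hc.imp ?_⟩
      · rintro e he ⟨w, hw⟩
        obtain ⟨q, hq | hq⟩ := chain_nbr L hL hc e he
        · exact hq ⟨(q.1, (S q.1).φ w * q.2), by rw [map_mul, ← hw, sd_φ, sd_φ]⟩
        · exact hq ⟨(q.1, q.2 * (S q.1).φ w), by rw [map_mul, ← hw, sd_φ, sd_φ]⟩
      · rintro ⟨i, a⟩ ⟨j, b⟩ hab hij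
        dsimp only at hij
        subst hij
        exact hab ⟨(i, a * b), map_mul _ _ _⟩
    have h2 := hG.eq_nil S (by rw [show pv S L = 1 from h1]; exact one_mem _)
    subst h2
    simp at hL

end Vale.Agent.N186
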