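import Mathlib.GroupTheory.FreeGroup.Reduce
import Vale.Agent.N186.Free

/-! A family of words of nine syllables in a free product, with small cancellation. -/

set_option linter.all false

namespace Vale.Agent.N186

open Monoid

/-- data of the family of words -/
structure Sys {ι : Type} (M : ι → Type) [∀ i, Group (M i)] (Λ : Type) where
  i₀ : ι
  i₁ : ι
  ne : i₀ ≠ i₁
  x : M i₀
  y : M i₁
  xinj : Function.Injective fun n : ℤ => x ^ n
  yne : y ≠ 1
  c : Λ × Bool → ℕ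
  cinj : Function.Injective c
  τ : Λ × Bool → M i₁
  τne : ∀ ξ, τ ξ ≠ 1
  σ : Λ × Bool → Σ i, M i
  σflip : ∀ ξ : Λ × Bool, σ (ξ.1, !ξ.2) = sinv (σ ξ)
  σ1 : ∀ ξ, (σ ξ).1 ≠ i₁
  σne : ∀ ξ, (σ ξ).2 ≠ 1
  σodd : ∀ ξ (n : ℤ), σ ξ ≠ ⟨i₀, x ^ (2 * n + 1)⟩

/-- inverse letter -/
def fl {Λ : Type} (ξ : Λ × Bool) : Λ × Bool := (ξ.1, !ξ.2)

@[simp] theorem fl_fl {Λ : Type} (ξ : Λ × Bool) : fl (fl ξ) = ξ := by
  obtain ⟨a, b⟩ := ξ
  simp [fl]

namespace Sys

variable {ι : Type} {M : ι → Type} [∀ i, Group (M i)] {Λ : Type} (S : Sys M Λ)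

def X (n : ℤ) : Σ i, M i := ⟨S.i₀, S.x ^ n⟩
def Y (t : M S.i₁) : Σ i, M i := ⟨S.i₁, t⟩
def h (ξ : Λ × Bool) : ℤ := 2 * (S.c ξ : ℤ) + 2
def a (ξ : Λ × Bool) : ℤ := 2 * (S.c ξ : ℤ) + 1

def body (ξ : Λ × Bool) : List (Σ i, M i) :=
  [S.Y S.y, S.X (S.a ξ), S.Y (S.τ ξ), S.σ ξ, S.Y (S.τ (fl ξ))⁻¹, S.X (-S.a (fl ξ)), S.Y S.y⁻¹]

def z (ξ : Λ × Bool) : List (Σ i, M i) := S.X (S.h ξ) :: (S.body ξ ++ [S.X (-S.h (fl ξ))])

def enc : ℤ → List (Λ × Bool) → List (Σ i, M i)
  | e, [] => [S.X e]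
  | e, ξ :: f => S.X (e + S.h ξ) :: (S.body ξ ++ enc (-S.h (fl ξ)) f)

noncomputable def φ : FreeGroup Λ →* CoprodI M := FreeGroup.lift fun l => ev (S.z (l, true))

theorem X_inj {m n : ℤ} (h : S.X m = S.X n) : m = n := by
  apply S.xinj
  exact eq_of_heq (Sigma.mk.inj_iff.1 h).2

theorem X_ne_Y (n : ℤ) (t : M S.i₁) : S.X n ≠ S.Y t := fun h => S.ne (congrArg Sigma.fst h)

theorem X_ne {n : ℤ} (h : n ≠ 0) : (S.X n).2 ≠ 1 := by
  intro e
  apply h
  apply S.xinj
  show S.x ^ n = S.x ^ (0 : ℤ)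
  rw [zpow_zero]
  exact e

theorem sinv_X (n : ℤ) : sinv (S.X n) = S.X (-n) := by
  show (⟨S.i₀, (S.x ^ n)⁻¹⟩ : Σ i, M i) = ⟨S.i₀, S.x ^ (-n)⟩
  rw [zpow_neg]

theorem sinv_Y (t : M S.i₁) : sinv (S.Y t) = S.Y t⁻¹ := rfl

theorem σ_fl (ξ : Λ × Bool) : S.σ (fl ξ) = sinv (S.σ ξ) := S.σflip ξ

theorem length_z (ξ : Λ × Bool) : (S.z ξ).length = 9 := rfl

theorem linv_z (ξ : Λ × Bool) : linv (S.z ξ) = S.z (fl ξ) := by
  simp [z, body, sinv_X, sinv_Y, σ_fl]

theorem ev_z_fl (ξ : Λ × Bool) : ev (S.z (fl ξ)) = (ev (S.z ξ))⁻¹ := by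
  rw [← linv_z, ev_linv]

theorem φ_cons (ξ : Λ × Bool) (f : List (Λ × Bool)) :
    S.φ (FreeGroup.mk (ξ :: f)) = ev (S.z ξ) * S.φ (FreeGroup.mk f) := by
  unfold φ
  rw [FreeGroup.lift_mk, FreeGroup.lift_mk, List.map_cons, List.prod_cons]
  obtain ⟨l, _ | _⟩ := ξ
  · congr 1
    exact (S.ev_z_fl (l, true)).symm
  · rfl

theorem φ_nil : S.φ (FreeGroup.mk []) = 1 := by
  rw [← FreeGroup.one_eq_mk, map_one]

theorem of_X (n : ℤ) : (CoprodI.of (S.X n).2 : CoprodI M) = (CoprodI.of S.x : CoprodI M) ^ n :=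
  map_zpow (CoprodI.of : M S.i₀ →* CoprodI M) S.x n

theorem ev_enc (f : List (Λ × Bool)) : ∀ e : ℤ,
    ev (S.enc e f) = (CoprodI.of S.x : CoprodI M) ^ e * S.φ (FreeGroup.mk f) := by
  induction f with
  | nil => intro e; simp [enc, φ_nil, of_X]
  | cons ξ f ih =>
    intro e
    rw [enc, φ_cons, z]
    simp only [ev_cons, ev_append, ih, of_X, ev_nil, zpow_add]
    group

theorem enc_head (e : ℤ) (f : List (Λ × Bool)) : ∀ b ∈ (S.enc e f).head?, b.1 = S.i₀ := by
  intro b hb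
  cases f with
  | nil =>
    simp only [enc, List.head?_cons, Option.mem_def, Option.some.injEq] at hb
    subst hb; rfl
  | cons ξ f =>
    simp only [enc, List.head?_cons, Option.mem_def, Option.some.injEq] at hb
    subst hb; rfl

theorem red_body (ξ : Λ × Bool) : Red (S.body ξ) := by
  have h1 : (S.X (S.a ξ)).2 ≠ 1 := S.X_ne (by unfold a; omega)
  have h2 : (S.X (-S.a (fl ξ))).2 ≠ 1 := S.X_ne (by unfold a; omega)
  have h3 := S.σ1 ξ
  have h4 := S.ne
  constructor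
  · intro s hs
    simp only [body, List.mem_cons, List.not_mem_nil, or_false] at hs
    rcases hs with rfl | rfl | rfl | rfl | rfl | rfl | rfl
    · exact S.yne
    · exact h1
    · exact S.τne _
    · exact S.σne _
    · exact inv_ne_one.2 (S.τne _)
    · exact h2
    · exact inv_ne_one.2 S.yne
  · simp only [body, List.isChain_cons_cons, List.isChain_singleton, and_true]
    exact ⟨h4.symm, h4, h3.symm, h3, h4.symm, h4⟩

theorem red_enc (f : List (Λ × Bool)) : ∀ e : ℤ, FreeGroup.IsReduced f → (f = [] → e ≠ 0) →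
    (∀ ξ ∈ f.head?, e + S.h ξ ≠ 0) → Red (S.enc e f) := by
  induction f with
  | nil => intro e _ h _; exact red_singleton.2 (S.X_ne (h rfl))
  | cons ξ f ih =>
    intro e hf _ h
    rw [enc, red_cons, red_append]
    refine ⟨S.X_ne (h ξ rfl), ⟨S.red_body ξ, ih _ (List.IsChain.tail hf) ?_ ?_, ?_⟩, ?_⟩
    · intro _
      unfold Sys.h; omega
    · intro η hη
      obtain ⟨f', rfl⟩ : ∃ f', f = η :: f' := by
        cases f with
        | nil => simp at hη
        | cons b f' =>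
          simp only [List.head?_cons, Option.mem_def, Option.some.injEq] at hη
          exact ⟨f', by rw [hη]⟩
      have h1 := (FreeGroup.isReduced_cons_cons.1 hf).1
      intro h2
      have h3 : S.c (fl ξ) = S.c η := by unfold Sys.h at h2; omega
      have h4 := S.cinj h3
      subst h4
      have h5 := h1 rfl
      simp [fl] at h5
    · intro p hp b hb
      rw [S.enc_head _ _ b hb]
      simp only [body, List.getLast?_cons_cons, List.getLast?_singleton, Option.mem_def,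
        Option.some.injEq] at hp
      subst hp
      exact S.ne.symm
    · intro b hb
      simp only [body, List.cons_append, List.head?_cons, Option.mem_def, Option.some.injEq] at hb
      subst hb
      exact S.ne

theorem nf_φ {f : List (Λ × Bool)} (hf : FreeGroup.IsReduced f) (hne : f ≠ []) :
    nf (S.φ (FreeGroup.mk f)) = S.enc 0 f := by
  apply nf_eq
  · refine S.red_enc f 0 hf (fun h => absurd h hne) fun ξ _ => ?_
    unfold Sys.h; omega
  · rw [ev_enc]; simp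

theorem enc_ne_nil (e : ℤ) (f : List (Λ × Bool)) : S.enc e f ≠ [] := by
  cases f <;> simp [enc]

theorem φ_inj : Function.Injective S.φ := by
  classical
  rw [injective_iff_map_eq_one]
  intro w hw
  by_contra hne
  have h1 : w.toWord ≠ [] := fun h => hne (FreeGroup.toWord_eq_nil_iff.1 h)
  have h2 := S.nf_φ FreeGroup.isReduced_toWord h1
  rw [FreeGroup.mk_toWord, hw, nf_one] at h2
  exact S.enc_ne_nil _ _ h2.symm

theorem enc_pre (ζ : Λ × Bool) (f : List (Λ × Bool)) : (S.z ζ).take 8 <+: S.enc 0 (ζ :: f) :=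
  ⟨S.enc (-S.h (fl ζ)) f, by simp [enc, z, body]⟩

theorem enc_suf (η : Λ × Bool) (f : List (Λ × Bool)) : ∀ e : ℤ,
    (S.z η).drop 1 <:+ S.enc e (f ++ [η]) := by
  induction f with
  | nil => intro e; exact ⟨[S.X (e + S.h η)], by simp [enc, z]⟩
  | cons ξ f ih =>
    intro e
    refine (ih (-S.h (fl ξ))).trans ⟨S.X (e + S.h ξ) :: S.body ξ, ?_⟩
    simp [enc]

theorem enc_length (e : ℤ) (ξ : Λ × Bool) (f : List (Λ × Bool)) :
    9 ≤ (S.enc e (ξ :: f)).length := by
  have := List.length_pos_iff.2 (S.enc_ne_nil (-S.h (fl ξ)) f)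
  simp only [enc, body, List.length_cons, List.length_append, List.length_nil]
  omega

theorem enc_single (ξ : Λ × Bool) : S.enc 0 [ξ] = S.z ξ := by
  simp [enc, z]

/-- a marker determines its position -/
theorem marker (ζ : Λ × Bool) (f : List (Λ × Bool)) : ∀ (k : ℤ) (t r : List (Σ i, M i)),
    S.enc (2 * k) f = t ++ S.X (S.a ζ) :: r →
    ∃ w, ev t = (CoprodI.of S.x : CoprodI M) ^ (2 * k) * S.φ w * ev ((S.z ζ).take 2) := by
  induction f with
  | nil =>
    intro k t r h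
    exfalso
    rcases t with _ | ⟨a0, t⟩
    · simp only [enc, List.nil_append, List.cons.injEq] at h
      have := S.X_inj h.1
      unfold a at this; omega
    · simp [enc] at h
  | cons ξ f ih =>
    intro k t r h
    rcases t with _ | ⟨a0, _ | ⟨a1, _ | ⟨a2, _ | ⟨a3, _ | ⟨a4, _ | ⟨a5, _ | ⟨a6, _ | ⟨a7, t⟩⟩⟩⟩⟩⟩⟩⟩
    all_goals simp only [enc, body, List.nil_append, List.cons_append, List.cons.injEq] at h
    · have := S.X_inj h.1
      unfold a Sys.h at this; omega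
    · exact absurd h.2.1.symm (S.X_ne_Y _ _)
    · have h1 := S.X_inj h.2.2.1
      have h2 : S.c ξ = S.c ζ := by unfold a at h1; omega
      have h3 := S.cinj h2
      subst h3
      refine ⟨1, ?_⟩
      rw [← h.1, ← h.2.1]
      simp only [z, body, List.cons_append, List.take_succ_cons, List.take_zero, ev_cons, ev_nil,
        of_X, zpow_add, map_one]
      group
    · exact absurd h.2.2.2.1.symm (S.X_ne_Y _ _)
    · exact absurd h.2.2.2.2.1 (S.σodd ξ (S.c ζ))
    · exact absurd h.2.2.2.2.2.1.symm (S.X_ne_Y _ _)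
    · have := S.X_inj h.2.2.2.2.2.2.1
      unfold a at this; omega
    · exact absurd h.2.2.2.2.2.2.2.1.symm (S.X_ne_Y _ _)
    · obtain ⟨e0, e1, e2, e3, e4, e5, e6, e7, e8⟩ := h
      have e9 : -S.h (fl ξ) = 2 * (-(S.c (fl ξ) : ℤ) - 1) := by unfold Sys.h; ring
      rw [e9] at e8
      obtain ⟨w, hw⟩ := ih _ t r e8
      rw [← e9] at hw
      refine ⟨FreeGroup.mk [ξ] * w, ?_⟩
      subst e0 e1 e2 e3 e4 e5 e6 e7
      rw [map_mul, φ_cons, φ_nil]
      generalize ev ((S.z ζ).take 2) = q at hw ⊢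
      simp only [z, body, List.cons_append, List.nil_append, ev_cons, ev_nil, of_X, zpow_add, hw]
      group

theorem exists_word {c : CoprodI M} (hc : c ∈ S.φ.range) (h1 : c ≠ 1) :
    ∃ f : List (Λ × Bool), FreeGroup.IsReduced f ∧ f ≠ [] ∧ S.φ (FreeGroup.mk f) = c := by
  classical
  obtain ⟨w, rfl⟩ := hc
  refine ⟨w.toWord, FreeGroup.isReduced_toWord, ?_, by rw [FreeGroup.mk_toWord]⟩
  intro h
  rw [FreeGroup.toWord_eq_nil_iff.1 h, map_one] at h1
  exact h1 rfl

/-- key lemma: an element outside the subgroup times an element starting like a word -/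
theorem key {c b : CoprodI M} (hc : c ∉ S.φ.range) {ζ : Λ × Bool}
    (hb : (S.z ζ).take 3 <+: nf b) (hcb : ¬ (S.z (fl ζ)).drop 7 <:+ nf c) :
    c * b ∉ S.φ.range ∧ ∀ ξ, (S.z ξ).take 5 <+: nf (c * b) → (S.z ξ).take 2 <+: nf c := by
  obtain ⟨r, hr⟩ := hb
  have e1 : nf b = (S.z ζ).take 2 ++ S.X (S.a ζ) :: r := by
    rw [← hr]; simp [z, body]
  have e2 : linv ((S.z ζ).take 2) = (S.z (fl ζ)).drop 7 := by
    simp [z, body, sinv_X, sinv_Y]
  obtain ⟨u₁, t, e3, hu, ht, e4⟩ := survive_right (a := c) e1 (by rw [e2]; exact hcb)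
  have hno : ∀ f r', S.enc 0 f ≠ (u₁ ++ t) ++ S.X (S.a ζ) :: r' := by
    intro f r' h
    obtain ⟨w, hw⟩ := S.marker ζ f 0 (u₁ ++ t) r' (by rw [mul_zero]; exact h)
    rw [e4, mul_zero, zpow_zero, one_mul] at hw
    exact hc ⟨w, (mul_right_cancel hw).symm⟩
  constructor
  · intro hm
    by_cases h1 : c * b = 1
    · rw [h1, nf_one] at e3
      simp at e3
    · obtain ⟨f, hf, hne, e⟩ := S.exists_word hm h1
      rw [← e, S.nf_φ hf hne] at e3
      exact hno f r e3
  · intro ξ hξ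
    have l2 : ((S.z ζ).take 2).length = 2 := rfl
    by_cases hl : 2 ≤ u₁.length
    · have p1 : (S.z ξ).take 2 <+: nf (c * b) :=
        (List.take_prefix_take_left (by omega)).trans hξ
      have p2 : u₁ <+: nf (c * b) := ⟨t ++ S.X (S.a ζ) :: r, by rw [e3]; simp⟩
      exact (List.prefix_of_prefix_length_le p1 p2 hl).trans hu
    · exfalso
      have p2 : (u₁ ++ t) ++ [S.X (S.a ζ)] <+: nf (c * b) := ⟨r, by rw [e3]; simp⟩
      have l5 : ((S.z ξ).take 5).length = 5 := rfl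
      have p3 := List.prefix_of_prefix_length_le p2 hξ (by
        simp only [List.length_append, List.length_singleton]
        omega)
      obtain ⟨r', hr'⟩ := p3.trans (List.take_prefix 5 _)
      exact hno [ξ] r' (by rw [enc_single, ← hr']; simp)

/-- the beginning of a subgroup element survives -/
theorem start {ζ η : Λ × Bool} {f f' : List (Λ × Bool)} (hf : FreeGroup.IsReduced (ζ :: f))
    (hη : ζ :: f = f' ++ [η]) {e : CoprodI M} (he : ¬ (S.z (fl η)).take 5 <+: nf e) :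
    (S.z ζ).take 3 <+: nf (S.φ (FreeGroup.mk (ζ :: f)) * e) := by
  have e1 := S.nf_φ hf (by simp)
  have s1 : (S.z η).drop 4 <:+ S.enc 0 (ζ :: f) := by
    rw [hη]
    exact (List.drop_suffix_drop_left _ (by omega)).trans (S.enc_suf η f' 0)
  obtain ⟨p, hp⟩ := s1
  have e2 : linv ((S.z η).drop 4) = (S.z (fl η)).take 5 := by
    simp [z, body, sinv_X, sinv_Y, σ_fl]
  have p1 := survive_left (b := e) (e1.trans hp.symm) (by rw [e2]; exact he)
  refine List.IsPrefix.trans ?_ p1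
  have p2 : (S.z ζ).take 3 <+: S.enc 0 (ζ :: f) :=
    (List.take_prefix_take_left (by omega)).trans (S.enc_pre ζ f)
  refine List.prefix_of_prefix_length_le p2 ⟨_, hp⟩ ?_
  have l1 := S.enc_length 0 ζ f
  have l2 := congrArg List.length hp
  have l3 : ((S.z η).drop 4).length = 5 := rfl
  have l4 : ((S.z ζ).take 3).length = 3 := rfl
  rw [List.length_append] at l2
  omega

end Sys

end Vale.Agent.N186
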